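import Crest.Agent.N346.Br.UBL

/-!
Row 346, bridge (helper16): `adm : AdmStmt` and `fam : FamStmt`.
-/

set_option autoImplicit false

open MeasureTheory Filter Topology
open scoped ContDiff
open Crest.GeometryTopology.CoordMetric Crest.MathPhysics.ExteriorData
open Crest.Agent.N346.An Crest.Agent.N346.Bs
open Crest.Agent.R238 (Ell)

noncomputable section

namespace Crest.Agent.N346.Br

variable {n : ℕ} {ι : Type}

theorem pol_div {d : ℕ} {P : ι → Y1 n → ℝ} {c : ι → Y0 n → ℝ} (h : Pol d P)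
    (hc : UB N0 fun a y => (c a y)⁻¹) : Pol d fun a Y => P a Y / c a Y.1 :=
  (h.cmul hc).congr fun _ _ => div_eq_inv_mul _ _

theorem adm : AdmStmt := by
  intro n ι b hb
  have h := hb.gf
  have hq : UB N0 fun a y => phz (b a).Φ y / ph (b a).Φ y := h.phz.div h.ph h.upos_ph
  have ha2 : ∀ k l, UB N0 fun a y => (b a).sys.a2 y k l := fun k l =>
    ((h.gbi k l).const_mul 2).add ((hq.const_mul 2).mul (h.Pi0 k l))
  have l2 : (1 : ℕ) ≤ 2 := one_le_two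
  refine ⟨h.gbi, fun k => ?_, ?_, ha2, ?_, fun M => ?_⟩
  · exact hq.neg.mul (UB.sum _ fun j _ => ((h.gbi k j).add (h.gbi j k)).mul (ub_p j))
  · obtain ⟨T, hT⟩ := hb.τ_bdd
    exact ((UB.sum _ fun i _ => UB.sum _ fun j _ => (h.gbi i j).mul (h.ub_Gp i j)).add
      ((h.gm0.div h.ph h.upos_ph).mul (((UB.const ⟨T, hT⟩).mul ub_f).add
        (UB.sum _ fun i _ => UB.sum _ fun j _ => (h.gbi i j).mul (hb.K_uc i j).lift)))).sub
      ((UB.sum _ fun i _ => UB.sum _ fun j _ => (h.gbi i j).mul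
        (((ub_tot0 h.Φ_ub i).mul (ub_p j)).add ((ub_tot0 h.Φ_ub j).mul (ub_p i)))).div
        h.ph h.upos_ph)
  · have t1 := ((Pol.sum Finset.univ fun i _ => Pol.sum Finset.univ fun j _ =>
      (Pol.sum Finset.univ fun k _ => (Pol.var1 k).cmul (h.uc_chr k i j).lift).cmul
        (h.gbi i j)).const_mul 2).le l2
    have t2 := (pol_div (Pol.sum Finset.univ fun i _ => Pol.sum Finset.univ fun j _ =>
      ((pol_tot h.Φ_ub i).cmul (h.gbi i j)).mul11 (Pol.var1 j)) h.ph_inv).cmul (h.pp0.const_mul 2)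
    have t3 := (h.H01.const_mul 2).mul11
      (Pol.sum Finset.univ fun j _ => (Pol.var1 j).cmul (h.w0 j))
    have t4 := (Pol.sum Finset.univ fun i _ => Pol.sum Finset.univ fun j _ =>
      ((Pol.var1 i).cmul (h.gbi i j)).mul11 (Pol.var1 j)).const_mul (P1.al n)
    have t5 := Pol.coef' h.uc_scal.lift 2
    have t6 := Pol.coef' ((UB.sum Finset.univ fun i _ => UB.sum Finset.univ fun j _ =>
      ((h.uc_ric i j).lift.mul (h.w0 i)).mul (h.w0 j)).const_mul 2) 2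
    have t7 := (pol_div (Pol.sum Finset.univ fun i _ => Pol.sum Finset.univ fun j _ =>
      ((pol_rest h.Φ_ub i j).sub ((Pol.sum Finset.univ fun k _ =>
        (pol_tot h.Φ_ub k).cmul (h.uc_chr k i j).lift).le l2)).cmul (h.Pi0 i j))
      h.ph_inv).const_mul 2
    have t8 := (h.H01.add (h.aa1.cmul h.pp0)).sq
    have t9 := Pol.sum Finset.univ fun i _ => Pol.sum Finset.univ fun j _ =>
      Pol.sum Finset.univ fun k _ => Pol.sum Finset.univ fun l _ =>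
        ((h.hx1 i j).cmul ((h.gbi i k).mul (h.gbi j l))).mul11 (h.hx1 k l)
    exact ((((((((t1.sub t2).add t3).sub t4).add t5).sub t6).sub t7).add t8).sub t9).add
      (Pol.coef' hb.Gs_ub 2)
  · obtain ⟨lo, hi, hlo, hlh, hE⟩ := h.gbi_bounds M
    obtain ⟨C, hC0, hC⟩ := ub_qb_le ha2 M
    have hs : ∀ v : Fin n → ℝ, 0 ≤ ∑ i, v i * v i := fun v =>
      Finset.sum_nonneg fun i _ => mul_self_nonneg _
    refine ⟨lo, max hi C, hlo, hlh.trans (le_max_left _ _), fun a y hy => ⟨⟨(hE a y hy).1,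
      fun z => ⟨((hE a y hy).2 z).1, ((hE a y hy).2 z).2.trans (mul_le_mul_of_nonneg_right
        (le_max_left _ _) (Finset.sum_nonneg fun i _ => sq_nonneg _))⟩⟩,
      ell_of_qb (fun i j => ?_) (fun v => ?_) fun v => (hC a y hy v).trans
        (mul_le_mul_of_nonneg_right (le_max_right _ _) (hs v))⟩⟩
    · simp only [Bg.sys, Matrix.of_apply, gbi_symm (h.riem a) y i j, Pi0_symm (h.riem a) y i j]
    · have e : qb ((b a).sys.a2 y) v v = 2 * qb (gbi (b a).g (b a).Φ y) v v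
          + 2 * (phz (b a).Φ y / ph (b a).Φ y) * qb (Matrix.of (Pi0 (b a).g (b a).Φ y)) v v := by
        simp only [qb, Bg.sys, Matrix.of_apply, add_mul, Finset.sum_add_distrib, Finset.mul_sum,
          mul_assoc]
      have h1 : lo * ∑ i, v i * v i ≤ qb (gbi (b a).g (b a).Φ y) v v := by
        simpa only [sq, qb] using ((hE a y hy).2 v).1
      have h2 : 0 ≤ phz (b a).Φ y / ph (b a).Φ y :=
        div_nonneg (hb.Φ_z a _) ((hb.reg a).Φ_pos _).le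
      have h3 := mul_nonneg h2 (qb_Pi0_nonneg (Φ := (b a).Φ) (h.riem a) y v)
      have h4 := mul_nonneg hlo.le (hs v)
      rw [e]
      linarith

/-! ### the design -/

theorem contDiff_cut (a b : ℝ) : ContDiff ℝ ∞ (P1.cut a b) :=
  Real.smoothTransition.contDiff.comp ((contDiff_id.sub contDiff_const).div_const _)

theorem cut_nonneg (a b t : ℝ) : 0 ≤ P1.cut a b t := Real.smoothTransition.nonneg _
theorem cut_le_one (a b t : ℝ) : P1.cut a b t ≤ 1 := Real.smoothTransition.le_one _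

theorem cut_mono {a b : ℝ} (h : a ≤ b) : Monotone (P1.cut a b) := fun _ _ hst =>
  Real.smoothTransition.monotone (div_le_div_of_nonneg_right (by linarith) (by linarith))

theorem ub_cut {Y : Type} [NormedAddCommGroup Y] [NormedSpace ℝ Y] {N : Y → ℝ} {u : ι → Y → ℝ}
    (h : UB N u) (a b : ℝ) : UB N fun i y => P1.cut a b (u i y) := h.comp_smooth (contDiff_cut a b)

theorem chi_mem (P : P1.Par) {a1 a2 : ℝ} (h1 : a1 ∈ Set.Icc (0 : ℝ) 1)
    (h2 : a2 ∈ Set.Icc (0 : ℝ) 1) (t : ℝ) : P.chi a1 a2 t ∈ Set.Icc (0 : ℝ) 1 := by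
  have c0 := cut_nonneg (-P.t1) (-P.t1 / 2) t
  have c1 := cut_le_one (-P.t1) (-P.t1 / 2) t
  have e0 : 0 ≤ a2 * (1 - P1.cut (-P.t1) (-P.t1 / 2) t) := mul_nonneg h2.1 (by linarith)
  have e1 : a2 * (1 - P1.cut (-P.t1) (-P.t1 / 2) t) ≤ 1 :=
    mul_le_one₀ h2.2 (by linarith) (by linarith)
  exact ⟨mul_nonneg h1.1 (by linarith), mul_le_one₀ h1.2 (by linarith) (by linarith)⟩

theorem δ_mem {P : P1.Par} (he : 0 < P.e) (he1 : P.e < 1) : 0 < P.δ ∧ P.δ < 1 :=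
  ⟨pow_pos he 2, pow_lt_one₀ he.le he1 two_ne_zero⟩

theorem δ_le_phiF {P : P1.Par} (he : 0 < P.e) (he1 : P.e < 1) {t a1 a2 : ℝ}
    (ht : t ∈ Set.Icc (0 : ℝ) 1) (h1 : a1 ∈ Set.Icc (0 : ℝ) 1) (h2 : a2 ∈ Set.Icc (0 : ℝ) 1)
    (f z : ℝ) : P.δ ≤ P.phiF t a1 a2 f z := by
  obtain ⟨d0, d1⟩ := δ_mem he he1
  have h3 : 0 ≤ (1 - P.δ) * P.chi a1 a2 (P.τ * f) * P.Ph z :=
    mul_nonneg (mul_nonneg (by linarith) (chi_mem P h1 h2 _).1) (cut_nonneg _ _ _)
  have h4 := mul_nonneg ht.1 h3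
  have h5 : t * (1 - P.δ) ≤ 1 * (1 - P.δ) := mul_le_mul_of_nonneg_right ht.2 (by linarith)
  unfold P1.Par.phiF
  nlinarith

/-- a function that is monotone in `z` has `dZ ≥ 0` -/
theorem dZ_nonneg {Θ : Z n → ℝ} (hΘ : Differentiable ℝ Θ)
    (hm : ∀ x f, Monotone fun z => Θ (x, f, z)) (q : Z n) : 0 ≤ dZ Θ q := by
  have h1 : HasDerivAt (fun z : ℝ => ((q.1, q.2.1, z) : Z n)) (0, 0, 1) q.2.2 :=
    (hasDerivAt_const _ _).prodMk ((hasDerivAt_const _ _).prodMk (hasDerivAt_id _))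
  have h2 := (hΘ q).hasFDerivAt.comp_hasDerivAt_of_eq q.2.2 h1 rfl
  exact h2.nonneg_of_monotone (hm q.1 q.2.1)

theorem qb_gt (c : P1.Coef n) (t : ℝ) (x : E n) (v : Fin n → ℝ) :
    qb (c.gt t x) v v = (1 - t) * ∑ i, v i * v i + t * qb (c.g x) v v := by
  rw [← qb_one, ← qb_smul, ← qb_smul]
  simp only [qb, P1.Coef.gt, Matrix.add_apply, add_mul, Finset.sum_add_distrib]

section unif
variable {lam : ℝ} {B : ℕ → ℝ}

theorem gt_lo {c : P1.Coef n} (hc : c.Unif lam B) {t : ℝ} (ht : t ∈ Set.Icc (0 : ℝ) 1) (x : E n)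
    (v : Fin n → ℝ) : lam * ∑ i, v i * v i ≤ qb (c.gt t x) v v := by
  have h1 : lam * ∑ i, v i * v i ≤ qb (c.g x) v v := by
    simpa [norm_sq_eq, quadForm_eq] using hc.g_lo x (WithLp.toLp 2 v)
  have hs : 0 ≤ ∑ i, v i * v i := Finset.sum_nonneg fun i _ => mul_self_nonneg _
  have h2 := mul_le_mul_of_nonneg_right hc.lam_le hs
  rw [qb_gt]
  nlinarith [mul_le_mul_of_nonneg_left h1 ht.1,
    mul_le_mul_of_nonneg_left h2 (sub_nonneg.2 ht.2)]

theorem riem_gt {c : P1.Coef n} (hc : c.Unif lam B) {t : ℝ} (ht : t ∈ Set.Icc (0 : ℝ) 1) :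
    IsRiemannianOn (c.gt t) Set.univ := by
  refine ⟨isOpen_univ, fun i j => ?_, fun x _ => posDef_of_qb (fun i j => ?_) fun v hv => ?_⟩
  · exact (contDiff_const.add (contDiff_const.mul (contDiff_g hc.riem i j))).contDiffOn
  · simp [P1.Coef.gt, riem_symm hc.riem x i j, Matrix.one_apply, eq_comm]
  · refine lt_of_lt_of_le (mul_pos hc.lam_pos ?_) (gt_lo hc ht x v)
    simpa [qb_one] using qb_pos Matrix.PosDef.one hv

/-- index type of the design -/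
abbrev Ix (n : ℕ) (lam : ℝ) (B : ℕ → ℝ) : Type :=
  {a : P1.Coef n × ℝ // a.1.Unif lam B ∧ a.2 ∈ Set.Icc (0 : ℝ) 1}

theorem uc_comp {u : P1.Coef n → E n → ℝ} (hu : ∀ c, u c ∈ c.comps) :
    UC fun a : Ix n lam B => u a.1.1 :=
  ⟨fun a => (a.2.1.bdd _ (hu _)).1, fun k _ => ⟨B k, fun a y _ => (a.2.1.bdd _ (hu _)).2 k y⟩⟩

theorem ub_t {Y : Type} [NormedAddCommGroup Y] [NormedSpace ℝ Y] {N : Y → ℝ} :
    UB N fun (a : Ix n lam B) (_ : Y) => a.1.2 :=
  UB.const ⟨1, fun a => abs_le.2 ⟨by linarith [a.2.2.1], a.2.2.2⟩⟩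

end unif

theorem UC.liftZ {u : ι → E n → ℝ} (h : UC u) : UB NZ fun a (q : Z n) => u a q.1 :=
  UB.comp h (UB1.clm (ContinuousLinearMap.fst ℝ (E n) (ℝ × ℝ))) fun _ => ⟨0, fun _ _ _ => le_rfl⟩

theorem ubZ_state : UB NZ fun (_ : ι) (q : Z n) => q.2 :=
  (UB1.clm (ContinuousLinearMap.snd ℝ (E n) (ℝ × ℝ))).ub fun M => ⟨M, fun _ _ hy => hy⟩

theorem fam : FamStmt := by
  intro n P hP he he1 lam B
  have ug : ∀ i j, UC fun (a : Ix n lam B) x => a.1.1.g x i j := fun i j =>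
    uc_comp (u := fun c x => c.g x i j) fun c => Or.inl ⟨i, j, rfl⟩
  have uK : ∀ i j, UC fun (a : Ix n lam B) x => a.1.1.K x i j := fun i j =>
    uc_comp (u := fun c x => c.K x i j) fun c => Or.inr (Or.inl ⟨i, j, rfl⟩)
  have uE : ∀ i, UC fun (a : Ix n lam B) x => a.1.1.EE x i := fun i =>
    uc_comp (u := fun c x => c.EE x i) fun c => Or.inr (Or.inr (Or.inl ⟨i, rfl⟩))
  have ua1 : UC fun a : Ix n lam B => a.1.1.a1 := uc_comp fun c => by simp [P1.Coef.comps]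
  have ua2 : UC fun a : Ix n lam B => a.1.1.a2 := uc_comp fun c => by simp [P1.Coef.comps]
  have ub1 : UC fun a : Ix n lam B => a.1.1.b1 := uc_comp fun c => by simp [P1.Coef.comps]
  have ub2 : UC fun a : Ix n lam B => a.1.1.b2 := uc_comp fun c => by simp [P1.Coef.comps]
  have ucw : UC fun a : Ix n lam B => a.1.1.cw := uc_comp fun c => by simp [P1.Coef.comps]
  have umw : UC fun a : Ix n lam B => a.1.1.mw := uc_comp fun c => by simp [P1.Coef.comps]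
  have uan : UC fun a : Ix n lam B => a.1.1.an := uc_comp fun c => by simp [P1.Coef.comps]
  have ugt : ∀ i j, UC fun (a : Ix n lam B) x => a.1.1.gt a.1.2 x i j := fun i j =>
    ((((UB.const' 1).sub ub_t).mul (UB.const' ((1 : Matrix (Fin n) (Fin n) ℝ) i j))).add
      (ub_t.mul (ug i j))).congr fun _ _ => rfl
  have uKt : ∀ i j, UC fun (a : Ix n lam B) x => a.1.1.Kt a.1.2 x i j := fun i j =>
    (ub_t.mul (uK i j)).congr fun _ _ => rfl
  have zf : UB NZ fun (_ : Ix n lam B) (q : Z n) => q.2.1 :=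
    ubZ_state.clm (ContinuousLinearMap.fst ℝ ℝ ℝ)
  have zz : UB NZ fun (_ : Ix n lam B) (q : Z n) => q.2.2 :=
    ubZ_state.clm (ContinuousLinearMap.snd ℝ ℝ ℝ)
  have uΦ : UB NZ fun a : Ix n lam B => bgΦ P a.1.1 a.1.2 :=
    (UB.const' 1).add (ub_t.mul (((UB.const' P.δ).add
      ((((UC.liftZ ua1).mul ((UB.const' 1).sub ((UC.liftZ ua2).mul ((UB.const' 1).sub
        (ub_cut (zf.const_mul P.τ) _ _))))).const_mul (1 - P.δ)).mul (ub_cut zz _ _))).sub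
      (UB.const' 1)))
  have hlo : ∀ (a : Ix n lam B) q, P.δ ≤ bgΦ P a.1.1 a.1.2 q := fun a q =>
    δ_le_phiF he he1 a.2.2 (a.2.1.a1_mem _) (a.2.1.a2_mem _) _ _
  have hglo : ∃ lam' > (0 : ℝ), ∀ (a : Ix n lam B) x v,
      lam' * ‖v‖ ^ 2 ≤ quadForm (a.1.1.gt a.1.2) x v := by
    refine ⟨max lam 0 + if 0 < lam then 0 else 1, by split_ifs <;> positivity, fun a x v => ?_⟩
    rw [if_pos a.2.1.lam_pos, max_eq_left a.2.1.lam_pos.le, add_zero, norm_sq_eq]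
    exact gt_lo a.2.1 a.2.2 x v
  have hF : GF (fun a : Ix n lam B => a.1.1.gt a.1.2) fun a => bgΦ P a.1.1 a.1.2 :=
    ⟨⟨fun a => riem_gt a.2.1 a.2.2, ugt, hglo⟩, uΦ, P.δ, (δ_mem he he1).1, hlo⟩
  refine ⟨fun a => ⟨hF.riem a, fun i j => (uKt i j).1 a, fun x i j => ?_, uΦ.1 a,
    fun q => (δ_mem he he1).1.trans_le (hlo a q)⟩, ugt, hglo, uKt, uΦ, hF.Φ_lo, fun a => ?_, ?_,
    ⟨|P.τ|, fun _ => le_rfl⟩⟩
  · show a.1.2 * a.1.1.K x i j = a.1.2 * a.1.1.K x j i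
    rw [a.2.1.K_symm]
  · refine dZ_nonneg ((uΦ.1 a).differentiable (by simp)) fun x f z z' hz => ?_
    have h1 : P.Ph z ≤ P.Ph z' := cut_mono (by linarith [hP.θ_pos]) hz
    have h2 : 0 ≤ (1 - P.δ) * P.chi (a.1.1.a1 x) (a.1.1.a2 x) (P.τ * f) :=
      mul_nonneg (by linarith [(δ_mem he he1).2]) (chi_mem P (a.2.1.a1_mem _) (a.2.1.a2_mem _) _).1
    have h3 := mul_le_mul_of_nonneg_left (mul_le_mul_of_nonneg_left h1 h2) a.2.2.1
    simp only [bgOf, bgΦ, P1.Par.phiF]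
    linarith
  · have tf : UB N0 fun (_ : Ix n lam B) (y : Y0 n) => P.τ * y.2.1 := ub_f.const_mul _
    have usz : UB N0 fun (_ : Ix n lam B) (y : Y0 n) => P.sz y.2.2.1 :=
      (UB.const' 1).sub (ub_cut ub_z _ _)
    have uvt : UB N0 fun (_ : Ix n lam B) (y : Y0 n) => P.vt y.2.2.1 :=
      (((UB.const' 1).sub (ub_cut ub_z _ _)).const_mul _).add ((ub_cut ub_z _ _).const_mul _)
    have udd : UB N0 fun (a : Ix n lam B) (y : Y0 n) =>
        P.dd (a.1.1.b1 y.1) (a.1.1.b2 y.1) (P.τ * y.2.1) :=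
      (UB.const' 1).sub (ub1.lift.mul ((UB.const' 1).sub ((ub_cut (tf.pow 2) _ _).mul ub2.lift)))
    exact ((ub_t.mul ((((((((tf.pow 2).add (hF.pp0.const_mul _)).add (umw.lift.const_mul 2)).add
      ((hF.eSq0 uE).const_mul 2)).neg).sub (usz.mul ucw.lift)).add
      (((UB.const' 1).sub usz).mul (udd.const_mul _))).add (uan.lift.mul ub_z))).add
      (((UB.const' 1).sub ub_t).mul ub_z)).add uvt

end Crest.Agent.N346.Br

end
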