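import Crest.Agent.N346.Br.Defs

/-! Row 346, bridge, leaf B4 (helper8): `cong : CongStmt`. -/

set_option autoImplicit false

open Filter Topology
open Crest.GeometryTopology.CoordMetric Crest.MathPhysics.ExteriorData

noncomputable section

namespace Crest.Agent.N346.Br

variable {n : ℕ} {x v : E n}

theorem fderiv_cong {X F : Type*} [NormedAddCommGroup X] [NormedSpace ℝ X] [NormedAddCommGroup F]
    [NormedSpace ℝ F] {u' u : X → F} {p w : X} (h : ∀ᶠ y in 𝓝 p, u' (y + w) = u y) :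
    fderiv ℝ u' (p + w) = fderiv ℝ u p := by
  rw [← fderiv_comp_add_right]
  exact Filter.EventuallyEq.fderiv_eq h

theorem pd_cong {u' u : E n → ℝ} (h : ∀ᶠ y in 𝓝 x, u' (y + v) = u y) (i : Fin n) :
    pderiv i u' (x + v) = pderiv i u x := by
  unfold pderiv
  rw [fderiv_cong h]

theorem chr_cong {g' g : MetricField n} (h : ∀ᶠ y in 𝓝 x, g' (y + v) = g y) (k i j : Fin n) :
    christoffel g' (x + v) k i j = christoffel g x k i j := by
  have h1 : ∀ a b c, pderiv a (fun y => g' y b c) (x + v) = pderiv a (fun y => g y b c) x :=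
    fun a b c => pd_cong (h.mono fun y hy => by simp only [hy]) a
  simp only [christoffel, inverseField, h.self_of_nhds, h1]

theorem ric_cong {g' g : MetricField n} (h : ∀ᶠ y in 𝓝 x, g' (y + v) = g y) (i j : Fin n) :
    ricci g' (x + v) i j = ricci g x i j := by
  have h1 : ∀ a b c d, pderiv a (fun y => christoffel g' y b c d) (x + v) =
      pderiv a (fun y => christoffel g y b c d) x := fun a b c d =>
    pd_cong (h.eventually_nhds.mono fun y hy => chr_cong hy b c d) a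
  have h2 : pderiv j (fun y => ∑ k, christoffel g' y k k i) (x + v) =
      pderiv j (fun y => ∑ k, christoffel g y k k i) x :=
    pd_cong (h.eventually_nhds.mono fun y hy => by simp only [chr_cong hy]) j
  simp only [ricci, h1, h2, chr_cong h]

theorem scal_cong {g' g : MetricField n} (h : ∀ᶠ y in 𝓝 x, g' (y + v) = g y) :
    scalarCurv g' (x + v) = scalarCurv g x := by
  simp only [scalarCurv, inverseField, h.self_of_nhds, ric_cong h]

/-- germs of state functions, up to the translation -/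
def RelZ (x v : E n) (Θ' Θ : Z n → ℝ) : Prop := ∀ᶠ y in 𝓝 x, ∀ s, Θ' (y + v, s) = Θ (y, s)

theorem RelZ.eq {Θ' Θ : Z n → ℝ} (h : RelZ x v Θ' Θ) (s : ℝ × ℝ) : Θ' (x + v, s) = Θ (x, s) :=
  h.self_of_nhds s

theorem RelZ.deriv {Θ' Θ : Z n → ℝ} (h : RelZ x v Θ' Θ) (w : Z n) :
    RelZ x v (fun q => fderiv ℝ Θ' q w) fun q => fderiv ℝ Θ q w := by
  refine h.eventually_nhds.mono fun y hy s => ?_
  have h1 : ∀ᶠ q : Z n in 𝓝 (y, s), Θ' (q + (v, 0)) = Θ q :=
    (continuous_fst.continuousAt.tendsto.eventually hy).mono fun q hq => by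
      have := hq q.2
      rwa [show q + (v, 0) = (q.1 + v, q.2) from Prod.ext rfl (add_zero _)]
  have h2 := fderiv_cong h1
  rw [show ((y, s) : Z n) + (v, 0) = (y + v, s) from Prod.ext rfl (add_zero _)] at h2
  simp only [h2]

theorem RelZ.dX {Θ' Θ : Z n → ℝ} (h : RelZ x v Θ' Θ) (j : Fin n) : RelZ x v (dX j Θ') (dX j Θ) :=
  h.deriv _

theorem RelZ.dF {Θ' Θ : Z n → ℝ} (h : RelZ x v Θ' Θ) : RelZ x v (dF Θ') (dF Θ) := h.deriv _

theorem RelZ.dZ {Θ' Θ : Z n → ℝ} (h : RelZ x v Θ' Θ) : RelZ x v (dZ Θ') (dZ Θ) := h.deriv _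

theorem RelZ.tot0 {Θ' Θ : Z n → ℝ} (h : RelZ x v Θ' Θ) (s : An.S0 n) (j : Fin n) :
    tot0 Θ' (x + v, s) j = tot0 Θ (x, s) j := by
  simp only [Br.tot0, prj, (h.dX j).eq, h.dF.eq]

theorem RelZ.tot {Θ' Θ : Z n → ℝ} (h : RelZ x v Θ' Θ) (s : An.S0 n) (ξ : An.Xi n) (j : Fin n) :
    tot Θ' ((x + v, s), ξ) j = tot Θ ((x, s), ξ) j := by
  simp only [Br.tot, prj, h.tot0, h.dZ.eq]

theorem cong : CongStmt := by
  intro n b b' x v hτ h s
  have hg : ∀ᶠ y in 𝓝 x, b'.g (y + v) = b.g y := h.mono fun y hy => hy.1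
  have hΦ : RelZ x v b'.Φ b.Φ := h.mono fun y hy => hy.2.2.1
  obtain ⟨h1, h2, -, h4⟩ := h.self_of_nhds
  have e1 : ph b'.Φ (x + v, s) = ph b.Φ (x, s) := hΦ.eq _
  have e2 : phz b'.Φ (x + v, s) = phz b.Φ (x, s) := hΦ.dZ.eq _
  have e3 : sq0 b'.g b'.Φ (x + v, s) = sq0 b.g b.Φ (x, s) := by
    simp only [sq0, inverseField, e1, h1]
  have e4 : gm0 b'.g b'.Φ (x + v, s) = gm0 b.g b.Φ (x, s) := by simp only [gm0, e3]
  have e5 : pp0 b'.g b'.Φ (x + v, s) = pp0 b.g b.Φ (x, s) := by simp only [pp0, e3]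
  have e6 : w0 b'.g b'.Φ (x + v, s) = w0 b.g b.Φ (x, s) := by
    funext i; simp only [w0, inverseField, e1, e4, h1]
  have e7 : gbi b'.g b'.Φ (x + v, s) = gbi b.g b.Φ (x, s) := by simp only [gbi, gb0, e1, h1]
  have e8 : Gp b'.g (x + v, s) = Gp b.g (x, s) := by
    funext i j; simp only [Gp, chr_cong hg]
  have e9 : Pi0 b'.g b'.Φ (x + v, s) = Pi0 b.g b.Φ (x, s) := by
    funext i j; simp only [Pi0, inverseField, e5, e6, h1]
  refine ⟨e7, ?_, ?_, ?_, fun ξ => ?_⟩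
  · simp only [Bg.sys, e1, e2, e7]
  · simp only [Bg.sys, e1, e4, e7, e8, hτ, h2, hΦ.tot0]
  · simp only [Bg.sys, e1, e2, e7, e9]
  · have f1 : hh1 b'.g b'.Φ ((x + v, s), ξ) = hh1 b.g b.Φ ((x, s), ξ) := by
      funext i j; simp only [hh1, e1, e4, e8, hΦ.tot]
    have f2 : aa1 b'.g b'.Φ ((x + v, s), ξ) = aa1 b.g b.Φ ((x, s), ξ) := by
      simp only [aa1, e1, e6, hΦ.tot]
    have f3 : H01 b'.g b'.Φ ((x + v, s), ξ) = H01 b.g b.Φ ((x, s), ξ) := by
      simp only [H01, e7, f1]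
    have f4 : rest b'.Φ ((x + v, s), ξ) = rest b.Φ ((x, s), ξ) := by
      funext i j; simp only [rest, prj, (hΦ.dX j).tot, hΦ.dF.tot, hΦ.dZ.tot, hΦ.dF.eq]
    have f5 : hx1 b'.g b'.Φ ((x + v, s), ξ) = hx1 b.g b.Φ ((x, s), ξ) := by
      funext i j; simp only [hx1, e1, f1, f2]
    simp only [Bg.sys, e1, e5, e6, e7, e9, f2, f3, f4, f5, h4, hΦ.tot, chr_cong hg, ric_cong hg,
      scal_cong hg]

end Crest.Agent.N346.Br

end
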