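import Crest.Agent.N346.Br.Defs
import Crest.Agent.N346.Mat

/-! Row 346, bridge, leaf B6 (helper8): `cont : ContStmt`. -/

set_option autoImplicit false

open Filter Topology Set
open scoped ContDiff
open Crest.GeometryTopology.CoordMetric Crest.MathPhysics.ExteriorData
open Crest.Agent.N346.An (Y0 Y1)

noncomputable section

namespace Crest.Agent.N346.Br

variable {n : ℕ}

/-- jointly smooth at all times `t ∈ [0,1]` -/
def JS {X : Type} [NormedAddCommGroup X] [NormedSpace ℝ X] (u : ℝ → X → ℝ) : Prop :=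
  ∀ t ∈ Icc (0 : ℝ) 1, ∀ x, ContDiffAt ℝ ∞ (fun p : ℝ × X => u p.1 p.2) (t, x)

/-- continuous on `[0,1]` -/
abbrev CT (u : ℝ → ℝ) : Prop := ContinuousOn u (Icc 0 1)

namespace JS

variable {X : Type} [NormedAddCommGroup X] [NormedSpace ℝ X] {u v : ℝ → X → ℝ}

theorem cont (h : JS u) (x : X) : CT fun t => u t x := fun t ht =>
  (ContinuousAt.comp (f := fun t : ℝ => (t, x)) (h t ht x).continuousAt
    (by fun_prop)).continuousWithinAt

theorem deriv (h : JS u) (w : X) : JS fun t x => fderiv ℝ (u t) x w := fun t ht x => by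
  have h0 : ContDiffAt ℝ ∞ (fun q : (ℝ × X) × X => (q.1.1, q.2)) ((t, x), x) := by fun_prop
  have h1 : ContDiffAt ℝ ∞ (fun p : ℝ × X => fderiv ℝ (u p.1) p.2) (t, x) :=
    ContDiffAt.fderiv (f := fun (p : ℝ × X) (y : X) => u p.1 y) (g := Prod.snd) (n := ∞)
      (ContDiffAt.comp (g := fun p : ℝ × X => u p.1 p.2) ((t, x), x) (h t ht x) h0)
      contDiffAt_snd (by simp)
  exact h1.clm_apply contDiffAt_const

theorem const (c : ℝ) : JS fun (_ : ℝ) (_ : X) => c := fun _ _ _ => contDiffAt_const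

theorem add (hu : JS u) (hv : JS v) : JS fun t x => u t x + v t x := fun t ht x =>
  (hu t ht x).add (hv t ht x)

theorem sub (hu : JS u) (hv : JS v) : JS fun t x => u t x - v t x := fun t ht x =>
  (hu t ht x).sub (hv t ht x)

theorem mul (hu : JS u) (hv : JS v) : JS fun t x => u t x * v t x := fun t ht x =>
  (hu t ht x).mul (hv t ht x)

theorem sum {ι : Type} [Fintype ι] {u : ι → ℝ → X → ℝ} (h : ∀ i, JS (u i)) :
    JS fun t x => ∑ i, u i t x := fun t ht x => ContDiffAt.sum fun i _ => h i t ht x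

theorem det {A : ℝ → X → Matrix (Fin n) (Fin n) ℝ} (h : ∀ i j, JS fun t x => A t x i j) :
    JS fun t x => (A t x).det := fun t ht x => by
  simp only [Matrix.det_apply']
  exact ContDiffAt.sum fun σ _ => contDiffAt_const.mul (contDiffAt_prod fun i _ => h _ _ t ht x)

theorem minv {A : ℝ → X → Matrix (Fin n) (Fin n) ℝ} (h : ∀ i j, JS fun t x => A t x i j)
    (hd : ∀ t ∈ Icc (0 : ℝ) 1, ∀ x, (A t x).det ≠ 0) (i j : Fin n) :
    JS fun t x => (A t x)⁻¹ i j := fun t ht x => by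
  simp only [Matrix.inv_def, Matrix.smul_apply, Ring.inverse_eq_inv', smul_eq_mul,
    Matrix.adjugate_apply]
  refine ((det h t ht x).inv (hd t ht x)).mul
    (det (A := fun t x => (A t x).updateRow j (Pi.single i 1)) (fun a b => ?_) t ht x)
  by_cases hab : a = j
  · simp only [hab, Matrix.updateRow_self]; exact const _
  · simp only [Matrix.updateRow_ne hab]; exact h a b

end JS

theorem ct_det {A : ℝ → Matrix (Fin n) (Fin n) ℝ} (h : ∀ i j, CT fun t => A t i j) :
    CT fun t => (A t).det := by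
  simp only [Matrix.det_apply']
  exact continuousOn_finsetSum _ fun σ _ => continuousOn_const.mul
    (continuousOn_finsetProd _ fun i _ => h _ _)

theorem ct_minv {A : ℝ → Matrix (Fin n) (Fin n) ℝ} (h : ∀ i j, CT fun t => A t i j)
    (hd : ∀ t ∈ Icc (0 : ℝ) 1, (A t).det ≠ 0) (i j : Fin n) : CT fun t => (A t)⁻¹ i j := by
  simp only [Matrix.inv_def, Matrix.smul_apply, Ring.inverse_eq_inv', smul_eq_mul,
    Matrix.adjugate_apply]
  refine ((ct_det h).inv₀ hd).mul
    (ct_det (A := fun t => (A t).updateRow j (Pi.single i 1)) fun a b => ?_)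
  by_cases hab : a = j
  · simp only [hab, Matrix.updateRow_self]; exact continuousOn_const
  · simp only [Matrix.updateRow_ne hab]; exact h a b

theorem ct_sum {ι : Type} [Fintype ι] {u : ι → ℝ → ℝ} (h : ∀ i, CT (u i)) :
    CT fun t => ∑ i, u i t := continuousOn_finsetSum _ fun i _ => h i

theorem sq0_nonneg' {g : MetricField n} {Φ : Z n → ℝ} {y : Y0 n} (h : (g y.1).PosDef) :
    0 ≤ sq0 g Φ y := mul_nonneg (sq_nonneg _) (Bs.qb_nonneg h.inv _)

theorem gb0_posDef' {g : MetricField n} {Φ : Z n → ℝ} {y : Y0 n} (h : (g y.1).PosDef) :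
    (gb0 g Φ y).PosDef := by
  refine Bs.posDef_of_qb (fun i j => ?_) fun v hv => ?_
  · simp only [gb0, Matrix.add_apply, Matrix.of_apply, Bs.posDef_symm h i j]; ring
  · have e : Bs.qb (gb0 g Φ y) v v =
        Bs.qb (g y.1) v v + (ph Φ y * ∑ i, y.2.2.2 i * v i) ^ 2 := by
      rw [mul_pow, sq (∑ i, y.2.2.2 i * v i), Finset.sum_mul_sum]
      simp only [Bs.qb, gb0, Matrix.add_apply, Matrix.of_apply, Finset.mul_sum,
        ← Finset.sum_add_distrib]
      exact Finset.sum_congr rfl fun i _ => Finset.sum_congr rfl fun j _ => by ring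
    rw [e]
    exact add_pos_of_pos_of_nonneg (Bs.qb_pos h hv) (sq_nonneg _)

/-- jointly smooth families of metrics and warping factors -/
structure GC (g : ℝ → MetricField n) (Φ : ℝ → Z n → ℝ) : Prop where
  hg : ∀ i j, JS fun t x => g t x i j
  pos : ∀ t ∈ Icc (0 : ℝ) 1, ∀ x, (g t x).PosDef
  hΦ : JS Φ
  Φpos : ∀ t ∈ Icc (0 : ℝ) 1, ∀ q, 0 < Φ t q

theorem JS.tot0 {Θ : ℝ → Z n → ℝ} (h : JS Θ) (y : Y0 n) (j : Fin n) :
    CT fun t => tot0 (Θ t) y j :=
  ((h.deriv _).cont _).add (((h.deriv _).cont _).mul continuousOn_const)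

theorem JS.tot {Θ : ℝ → Z n → ℝ} (h : JS Θ) (Y : Y1 n) (j : Fin n) :
    CT fun t => tot (Θ t) Y j :=
  (h.tot0 _ j).add (((h.deriv _).cont _).mul continuousOn_const)

namespace GC

variable {g : ℝ → MetricField n} {Φ : ℝ → Z n → ℝ} (h : GC g Φ)
include h

theorem inv (i j : Fin n) : JS fun t x => inverseField (g t) x i j :=
  JS.minv h.hg (fun t ht x => (h.pos t ht x).det_pos.ne') i j

theorem chr (k i j : Fin n) : JS fun t x => christoffel (g t) x k i j :=
  (JS.const _).mul (JS.sum fun l => (h.inv k l).mul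
    ((((h.hg j l).deriv _).add ((h.hg i l).deriv _)).sub ((h.hg i j).deriv _)))

theorem ric (i j : Fin n) : JS fun t x => ricci (g t) x i j :=
  (((JS.sum fun k => (h.chr k i j).deriv _).sub
    ((JS.sum fun k => h.chr k k i).deriv _)).add
    (JS.sum fun k => JS.sum fun l => (h.chr k k l).mul (h.chr l i j))).sub
    (JS.sum fun k => JS.sum fun l => (h.chr k j l).mul (h.chr l k i))

theorem scal : JS fun t x => scalarCurv (g t) x :=
  JS.sum fun i => JS.sum fun j => (h.inv i j).mul (h.ric i j)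

variable (y : Y0 n) (Y : Y1 n)

theorem ph : CT fun t => ph (Φ t) y := h.hΦ.cont _

theorem ph_ne : ∀ t ∈ Icc (0 : ℝ) 1, Br.ph (Φ t) y ≠ 0 := fun t ht => (h.Φpos t ht _).ne'

theorem phz : CT fun t => phz (Φ t) y := (h.hΦ.deriv _).cont _

theorem sq0 : CT fun t => sq0 (g t) (Φ t) y :=
  ((h.ph y).pow 2).mul (ct_sum fun i => ct_sum fun j =>
    (((h.inv i j).cont _).mul continuousOn_const).mul continuousOn_const)

theorem sq0_pos : ∀ t ∈ Icc (0 : ℝ) 1, 0 < 1 + Br.sq0 (g t) (Φ t) y := fun t ht =>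
  add_pos_of_pos_of_nonneg one_pos (sq0_nonneg' (h.pos t ht _))

theorem gm0 : CT fun t => gm0 (g t) (Φ t) y := (continuousOn_const.add (h.sq0 y)).sqrt

theorem gm0_ne : ∀ t ∈ Icc (0 : ℝ) 1, Br.gm0 (g t) (Φ t) y ≠ 0 := fun t ht =>
  (Real.sqrt_pos.2 (h.sq0_pos y t ht)).ne'

theorem pp0 : CT fun t => pp0 (g t) (Φ t) y :=
  (h.sq0 y).div (continuousOn_const.add (h.sq0 y)) fun t ht => (h.sq0_pos y t ht).ne'

theorem w0 (i : Fin n) : CT fun t => w0 (g t) (Φ t) y i :=
  ((h.ph y).div (h.gm0 y) (h.gm0_ne y)).mul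
    (ct_sum fun j => ((h.inv i j).cont _).mul continuousOn_const)

theorem gb0 (i j : Fin n) : CT fun t => gb0 (g t) (Φ t) y i j :=
  ((h.hg i j).cont _).add ((((h.ph y).pow 2).mul continuousOn_const).mul continuousOn_const)

theorem gb0_ne : ∀ t ∈ Icc (0 : ℝ) 1, (Br.gb0 (g t) (Φ t) y).det ≠ 0 := fun t ht =>
  (gb0_posDef' (h.pos t ht _)).det_pos.ne'

theorem gbi (i j : Fin n) : CT fun t => gbi (g t) (Φ t) y i j :=
  ct_minv (h.gb0 y) (h.gb0_ne y) i j

theorem Gp (i j : Fin n) : CT fun t => Gp (g t) y i j :=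
  ct_sum fun k => ((h.chr k i j).cont _).mul continuousOn_const

theorem Pi0 (i j : Fin n) : CT fun t => Pi0 (g t) (Φ t) y i j :=
  ((h.pp0 y).mul ((h.inv i j).cont _)).sub ((h.w0 y i).mul (h.w0 y j))

theorem hh1 (i j : Fin n) : CT fun t => hh1 (g t) (Φ t) Y i j :=
  ((((h.ph _).mul (continuousOn_const.sub (h.Gp _ i j))).add
    ((h.hΦ.tot Y i).mul continuousOn_const)).add ((h.hΦ.tot Y j).mul continuousOn_const)).div
    (h.gm0 _) (h.gm0_ne _)

theorem aa1 : CT fun t => aa1 (g t) (Φ t) Y :=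
  (ct_sum fun j => (h.w0 _ j).mul (h.hΦ.tot Y j)).div (h.ph _) (h.ph_ne _)

theorem H01 : CT fun t => H01 (g t) (Φ t) Y :=
  ct_sum fun i => ct_sum fun j => (h.gbi _ i j).mul (h.hh1 Y i j)

theorem rest (i j : Fin n) : CT fun t => rest (Φ t) Y i j :=
  ((((h.hΦ.deriv _).tot Y i).add (((h.hΦ.deriv _).tot Y i).mul continuousOn_const)).add
    (((h.hΦ.deriv _).cont _).mul continuousOn_const)).add
    (((h.hΦ.deriv _).tot Y i).mul continuousOn_const)

theorem hx1 (i j : Fin n) : CT fun t => hx1 (g t) (Φ t) Y i j :=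
  (h.hh1 Y i j).add ((h.aa1 Y).mul
    ((((h.ph _).pow 2).mul continuousOn_const).mul continuousOn_const))

theorem eSq0 (EE : VectorField n) : CT fun t => eSq0 (g t) (Φ t) EE y :=
  (ct_sum fun i => ct_sum fun j =>
    ((h.gb0 y i j).mul continuousOn_const).mul continuousOn_const).div
    (ct_det (h.gb0 y)) (h.gb0_ne y)

end GC

theorem sysCont_of {b : ℝ → Bg n} (h : GC (fun t => (b t).g) fun t => (b t).Φ)
    (hK : ∀ x i j, CT fun t => (b t).K x i j) (hτ : CT fun t => (b t).τ)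
    (hG : ∀ y, CT fun t => (b t).Gs y) : An.SysCont fun t => (b t).sys where
  a1 y k l := h.gbi y k l
  b1 y k := ((h.phz y).div (h.ph y) (h.ph_ne y)).neg.mul
    (ct_sum fun j => ((h.gbi y k j).add (h.gbi y j k)).mul continuousOn_const)
  c1 y := ((ct_sum fun i => ct_sum fun j => (h.gbi y i j).mul (h.Gp y i j)).add
    (((h.gm0 y).div (h.ph y) (h.ph_ne y)).mul ((hτ.mul continuousOn_const).add
      (ct_sum fun i => ct_sum fun j => (h.gbi y i j).mul (hK _ i j))))).sub
    ((ct_sum fun i => ct_sum fun j => (h.gbi y i j).mul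
      (((h.hΦ.tot0 y i).mul continuousOn_const).add
        ((h.hΦ.tot0 y j).mul continuousOn_const))).div (h.ph y) (h.ph_ne y))
  a2 y k l := (continuousOn_const.mul (h.gbi y k l)).add
    ((continuousOn_const.mul ((h.phz y).div (h.ph y) (h.ph_ne y))).mul (h.Pi0 y k l))
  F2 Y := by
    refine ContinuousOn.add (.sub (.add (.sub (.sub (.add (.sub (.add (.sub ?_ ?_) ?_) ?_) ?_) ?_)
      ?_) ?_) ?_) (hG _)
    · exact continuousOn_const.mul (ct_sum fun i => ct_sum fun j => (h.gbi _ i j).mul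
        (ct_sum fun k => ((h.chr k i j).cont _).mul continuousOn_const))
    · exact (continuousOn_const.mul (h.pp0 _)).mul ((ct_sum fun i => ct_sum fun j =>
        ((h.gbi _ i j).mul (h.hΦ.tot Y i)).mul continuousOn_const).div (h.ph _) (h.ph_ne _))
    · exact (continuousOn_const.mul (h.H01 Y)).mul
        (ct_sum fun j => (h.w0 _ j).mul continuousOn_const)
    · exact continuousOn_const.mul (ct_sum fun i => ct_sum fun j =>
        ((h.gbi _ i j).mul continuousOn_const).mul continuousOn_const)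
    · exact h.scal.cont _
    · exact continuousOn_const.mul (ct_sum fun i => ct_sum fun j =>
        (((h.ric i j).cont _).mul (h.w0 _ i)).mul (h.w0 _ j))
    · exact continuousOn_const.mul ((ct_sum fun i => ct_sum fun j => (h.Pi0 _ i j).mul
        ((h.rest Y i j).sub (ct_sum fun k => ((h.chr k i j).cont _).mul (h.hΦ.tot Y k)))).div
        (h.ph _) (h.ph_ne _))
    · exact ((h.H01 Y).add ((h.pp0 _).mul (h.aa1 Y))).pow 2
    · exact ct_sum fun i => ct_sum fun j => ct_sum fun k => ct_sum fun l =>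
        (((h.gbi _ i k).mul (h.gbi _ j l)).mul (h.hx1 Y i j)).mul (h.hx1 Y k l)

theorem cut_mem' (a b t : ℝ) : P1.cut a b t ∈ Icc (0 : ℝ) 1 :=
  ⟨Real.smoothTransition.nonneg _, Real.smoothTransition.le_one _⟩

theorem contDiff_cut' (a b : ℝ) : ContDiff ℝ ∞ (P1.cut a b) :=
  Real.smoothTransition.contDiff.comp ((contDiff_id.sub contDiff_const).div_const _)

theorem gt_posDef' {c : P1.Coef n} {t : ℝ} (ht : t ∈ Icc (0 : ℝ) 1) {x : E n}
    (h : (c.g x).PosDef) : (c.gt t x).PosDef := by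
  rcases ht.1.eq_or_lt with h0 | h0
  · simpa [P1.Coef.gt, ← h0] using Matrix.PosDef.one
  · exact Matrix.PosDef.posSemidef_add (Matrix.PosSemidef.one.smul (sub_nonneg.2 ht.2)) (h.smul h0)

theorem phiF_pos' {P : P1.Par} (he : 0 < P.e) (he1 : P.e < 1) {t a1 a2 : ℝ}
    (ht : t ∈ Icc (0 : ℝ) 1) (h1 : a1 ∈ Icc (0 : ℝ) 1) (h2 : a2 ∈ Icc (0 : ℝ) 1) (f z : ℝ) :
    0 < P.phiF t a1 a2 f z := by
  have hδ : 0 < P.δ := pow_pos he 2
  have hδ1 : P.δ ≤ 1 := pow_le_one₀ he.le he1.le
  have hc := cut_mem' (-P.t1) (-P.t1 / 2) (P.τ * f)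
  have hχ : 0 ≤ P.chi a1 a2 (P.τ * f) :=
    mul_nonneg h1.1 (sub_nonneg.2 (mul_le_one₀ h2.2 (sub_nonneg.2 hc.2) (by linarith [hc.1])))
  have h3 : 0 ≤ (1 - P.δ) * P.chi a1 a2 (P.τ * f) * P.Ph z :=
    mul_nonneg (mul_nonneg (sub_nonneg.2 hδ1) hχ) (cut_mem' _ _ _).1
  have h4 := mul_nonneg ht.1 h3
  have h5 := mul_le_mul_of_nonneg_right ht.2 (sub_nonneg.2 hδ1)
  unfold P1.Par.phiF
  linarith

theorem gc_bgOf {P : P1.Par} (he : 0 < P.e) (he1 : P.e < 1) {lam : ℝ} {B : ℕ → ℝ}
    {c : P1.Coef n} (hc : c.Unif lam B) : GC c.gt (bgΦ P c) where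
  hg i j t _ x := by
    have h1 : ContDiff ℝ ∞ fun x => c.g x i j := (hc.bdd _ (Or.inl ⟨i, j, rfl⟩)).1
    simp only [P1.Coef.gt, Matrix.add_apply, Matrix.smul_apply, smul_eq_mul]
    exact (((contDiff_const.sub contDiff_fst).mul contDiff_const).add
      (contDiff_fst.mul (h1.comp contDiff_snd))).contDiffAt
  pos t ht x := gt_posDef' ht (hc.riem.posDef x trivial)
  hΦ t _ q := by
    have h1 : ContDiff ℝ ∞ c.a1 := (hc.bdd _ (by simp [P1.Coef.comps])).1
    have h2 : ContDiff ℝ ∞ c.a2 := (hc.bdd _ (by simp [P1.Coef.comps])).1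
    have h3 := contDiff_cut' (-P.t1) (-P.t1 / 2)
    have h4 := contDiff_cut' (-P.θ / 2) (-P.θ / 4)
    refine ContDiff.contDiffAt ?_
    simp only [bgΦ, P1.Par.phiF, P1.Par.chi, P1.Par.Ph]
    fun_prop
  Φpos t ht q := phiF_pos' he he1 ht (hc.a1_mem _) (hc.a2_mem _) _ _

theorem cont : ContStmt := by
  intro n P _ he he1 lam B c hc
  have h := gc_bgOf he he1 hc
  refine sysCont_of (b := bgOf P c) h (fun x i j => ?_) continuousOn_const fun y => ?_
  · exact continuousOn_id.mul continuousOn_const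
  · have h1 := h.pp0 y
    have h2 := h.eSq0 y c.EE
    simp only [bgOf]
    exact ((continuousOn_id.mul ((((((continuousOn_const.add (continuousOn_const.mul h1)).add
      continuousOn_const).add (continuousOn_const.mul h2)).neg.sub continuousOn_const).add
      continuousOn_const).add continuousOn_const)).add
      ((continuousOn_const.sub continuousOn_id).mul continuousOn_const)).add continuousOn_const

end Crest.Agent.N346.Br

end
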