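import Crest.Agent.N346.Br.Eval
import Crest.Agent.N346.Br.Adm
import Crest.Agent.N346.P1.Unif
import Crest.Agent.N346.An.Per
import Crest.Agent.N346.An.Lin

/-! Row 346, bridge: `RegStmt`, `TorStmt`, `ExStmt`, `LimStmt` of Part 1 from the abstract theory. -/

set_option autoImplicit false

open MeasureTheory Filter Topology Set
open scoped ContDiff
open Crest.GeometryTopology.CoordMetric Crest.MathPhysics.ExteriorData
open Crest.Agent.R202.Tens Crest.Agent.R247.Bo84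
open Crest.Agent.N346.Id hiding xi
open Crest.Agent.N346.An (Y0 Y1 Xi st xi UB UC N0 N1 Pol Adm en gsq aD2)
open Crest.Agent.N346.P1 (Par Coef Bdd Sys)

noncomputable section

namespace Crest.Agent.N346.Br

variable {n : ℕ}

theorem Fam.reindex {ι κ : Type} {b : ι → Bg n} (h : Fam b) (r : κ → ι) : Fam fun k => b (r k) where
  reg := fun _ => h.reg _
  g_uc := fun i j => (h.g_uc i j).reindex r
  g_lo := h.g_lo.imp fun _ H => ⟨H.1, fun _ => H.2 _⟩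
  K_uc := fun i j => (h.K_uc i j).reindex r
  Φ_ub := h.Φ_ub.reindex r
  Φ_lo := h.Φ_lo.imp fun _ H => ⟨H.1, fun _ => H.2 _⟩
  Φ_z := fun _ => h.Φ_z _
  Gs_ub := h.Gs_ub.reindex r
  τ_bdd := h.τ_bdd.imp fun _ H _ => H _

/-- agreement of two coefficient sets at the points `y'` and `y` -/
def Agree (c' c : Coef n) (y' y : E n) : Prop :=
  c'.g y' = c.g y ∧ c'.K y' = c.K y ∧ c'.EE y' = c.EE y ∧ c'.a1 y' = c.a1 y ∧ c'.a2 y' = c.a2 y ∧
    c'.b1 y' = c.b1 y ∧ c'.b2 y' = c.b2 y ∧ c'.cw y' = c.cw y ∧ c'.mw y' = c.mw y ∧ c'.an y' = c.an y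

theorem Agree.bg {c' c : Coef n} {y' y : E n} (h : Agree c' c y' y) (P : Par) (t : ℝ) :
    (bgOf P c' t).g y' = (bgOf P c t).g y ∧ (bgOf P c' t).K y' = (bgOf P c t).K y ∧
      (∀ s, (bgOf P c' t).Φ (y', s) = (bgOf P c t).Φ (y, s)) ∧
      ∀ s, (bgOf P c' t).Gs (y', s) = (bgOf P c t).Gs (y, s) := by
  obtain ⟨h1, h2, h3, h4, h5, h6, h7, h8, h9, h10⟩ := h
  refine ⟨?_, ?_, fun s => ?_, fun s => ?_⟩
  · simp only [bgOf, Coef.gt, h1]
  · simp only [bgOf, Coef.Kt, h2]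
  · simp only [bgOf, bgΦ, h4, h5]
  · simp only [bgOf, bgΦ, pp0, sq0, eSq0, gb0, ph, prj, inverseField, Coef.gt, h1, h3, h4, h5, h6,
      h7, h8, h9, h10]

theorem agree_of_per {c : Coef n} {L : ℝ} (h : ∀ u ∈ c.comps, P1.Per L u) (y : E n) (j : Fin n) :
    Agree c c (y + EuclideanSpace.single j L) y := by
  refine ⟨?_, ?_, ?_, h _ (by simp [Coef.comps]) j y, h _ (by simp [Coef.comps]) j y,
    h _ (by simp [Coef.comps]) j y, h _ (by simp [Coef.comps]) j y, h _ (by simp [Coef.comps]) j y,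
    h _ (by simp [Coef.comps]) j y, h _ (by simp [Coef.comps]) j y⟩
  · ext a b; exact h _ (Or.inl ⟨a, b, rfl⟩) j y
  · ext a b; exact h _ (Or.inr (Or.inl ⟨a, b, rfl⟩)) j y
  · ext a; exact h _ (Or.inr (Or.inr (Or.inl ⟨a, rfl⟩))) j y

theorem sys_per (hC : CongStmt) (P : Par) {c : Coef n} {L : ℝ} (h : ∀ u ∈ c.comps, P1.Per L u)
    (t : ℝ) : (bgOf P c t).sys.Per L := by
  have H := fun x (j : Fin n) => hC n (bgOf P c t) (bgOf P c t) x (EuclideanSpace.single j L) rfl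
    (Eventually.of_forall fun y => (agree_of_per h y j).bg P t)
  exact ⟨fun s x j => (H x j s).1, fun s x j => (H x j s).2.1, fun s x j => (H x j s).2.2.1,
    fun s x j => (H x j s).2.2.2.1, fun s ξ x j => (H x j s).2.2.2.2 ξ⟩

theorem n0_le {f z : E n → ℝ} {x : E n} {B0 : ℝ}
    (h : |f x| ≤ B0 ∧ |z x| ≤ B0 ∧ ‖fderiv ℝ f x‖ ≤ B0) : N0 (st f z x) ≤ B0 := by
  have h0 : 0 ≤ B0 := (abs_nonneg _).trans h.1
  refine norm_prod_le_iff.2 ⟨h.1, norm_prod_le_iff.2 ⟨h.2.1, (pi_norm_le_iff_of_nonneg h0).2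
    fun i => (Bs.abs_pd_le i f x).trans h.2.2⟩⟩

theorem reg (hR : An.RegStmt) (hS : StrStmt) : P1.RegStmt := by
  intro n hn P hP he he1 lam B0 B
  let ι : Type := {p : (Coef n × ℝ) × ℝ × (E n → ℝ) × (E n → ℝ) // p.1.1.Unif lam B ∧
    p.1.2 ∈ Icc (0 : ℝ) 1 ∧ 1 ≤ p.2.1 ∧ P1.Per p.2.1 p.2.2.1 ∧ P1.Per p.2.1 p.2.2.2 ∧
    Sys P p.1.1 p.1.2 p.2.2.1 p.2.2.2 ∧
    ∀ x, |p.2.2.1 x| ≤ B0 ∧ |p.2.2.2 x| ≤ B0 ∧ ‖fderiv ℝ p.2.2.1 x‖ ≤ B0}
  have hF : Fam fun a : ι => bgOf P a.1.1.1 a.1.1.2 :=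
    (fam n P hP he he1 lam B).reindex fun a : ι => ⟨a.1.1, a.2.1, a.2.2.1⟩
  have hG : ∀ a : ι, (bgOf P a.1.1.1 a.1.1.2).GSys a.1.2.2.1 a.1.2.2.2 :=
    fun a => (gsys_bgOf _ _ _ _ _).2 a.2.2.2.2.2.2.1
  have hb : ∃ M : ℝ, ∀ (a : ι) x, N0 (st a.1.2.2.1 a.1.2.2.2 x) ≤ M :=
    ⟨B0, fun a x => n0_le (a.2.2.2.2.2.2.2 x)⟩
  obtain ⟨h1, h2⟩ := hR n hn ι (fun a => (bgOf P a.1.1.1 a.1.1.2).sys) (fun a => a.1.2.2.1)
    (fun a => a.1.2.2.2) (adm n ι _ hF)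
    ⟨fun a => (sol n _ (hF.reg a) _ _).2 (hG a), fun a k => by
      have hL : 0 < a.1.2.1 := one_pos.trans_le a.2.2.2.1
      obtain ⟨B1, h1⟩ := (P1.per_iff.1 a.2.2.2.2.1).iter_bdd hL (hG a).1 k
      obtain ⟨B2, h2⟩ := (P1.per_iff.1 a.2.2.2.2.2.1).iter_bdd hL (hG a).2 k
      exact ⟨max B1 B2, fun x => ⟨(h1 x).trans (le_max_left _ _), (h2 x).trans (le_max_right _ _)⟩⟩,
      hb, hS n hn ι _ _ _ hF hG hb⟩
  obtain ⟨B', h3, h4⟩ := ((P1.ev_bdd h1).and (P1.ev_bdd h2)).exists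
  refine ⟨B', fun c hc t ht L f z hL _ hf hz hsys hbd => ?_⟩
  exact ⟨h3 ⟨((c, t), L, f, z), hc, ht, hL, hf, hz, hsys, hbd⟩,
    h4 ⟨((c, t), L, f, z), hc, ht, hL, hf, hz, hsys, hbd⟩⟩

theorem tor (hE : An.Ex2Stmt) (hC : CongStmt) (hT : ContStmt) (hS : SchStmt) : P1.TorStmt := by
  intro n hn P hP he he1 hM hz3 lam B c hc L hL hper ⟨B', hB'⟩
  have hL0 : 0 < L := one_pos.trans_le hL
  have hF : Fam fun t : Icc (0 : ℝ) 1 => bgOf P c t :=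
    (fam n P hP he he1 lam B).reindex fun t : Icc (0 : ℝ) 1 => ⟨(c, t), hc, t.2⟩
  obtain ⟨f, z, h1, h2, h3⟩ := hE n L hL0 (fun t => (bgOf P c t).sys) (adm n _ _ hF)
    (fun t _ => sys_per hC P hper t) (hT n P hP he he1 lam B c hc) (by
      let ι : Type := {p : (E n → ℝ) × (E n → ℝ) // Bdd B' p.1 ∧ Bdd B' p.2}
      obtain ⟨M, hM⟩ := An.n1_bdd (f := fun a : ι => a.1.1) (z := fun a : ι => a.1.2)
        (P1.uc_of_bdd fun a => a.2.1) (P1.uc_of_bdd fun a => a.2.2)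
      refine ⟨M, fun t ht f z hs hf hz x => hM ⟨(f, z), hB' t ht f z (P1.per_iff.2 hf)
        (P1.per_iff.2 hz) ((gsys_bgOf _ _ _ _ _).1 ((sol n _ (hF.reg ⟨t, ht⟩) _ _).1 hs))⟩ x⟩)
    (hS n P hP he hM hz3 c L hL0)
  exact ⟨f, z, P1.per_iff.2 h2, P1.per_iff.2 h3,
    (gsys_bgOf _ _ _ _ _).1 ((sol n _ (hF.reg ⟨1, by simp⟩) _ _).1 h1)⟩

theorem bdd_lim {B : ℕ → ℝ} {u : ℕ → E n → ℝ} {v : E n → ℝ} (hu : ∀ j, Bdd B (u j))
    (hv : ContDiff ℝ ∞ v) (h : ∀ k : ℕ, TendstoLocallyUniformly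
      (fun j => iteratedFDeriv ℝ k (u j)) (iteratedFDeriv ℝ k v) atTop) : Bdd B v :=
  ⟨hv, fun k x => le_of_tendsto' ((h k).tendstoLocallyUniformlyOn.tendsto_at (mem_univ x)).norm
    fun j => (hu j).2 k x⟩

/-- limits of bounded solutions when the coefficients stabilise -/
theorem close (hC : CongStmt) {P : Par} (hP : P.OK) (he : 0 < P.e) (he1 : P.e < 1) {lam : ℝ}
    {B B1 B' : ℕ → ℝ} {c : Coef n} (hc : c.Unif lam B) {cs : ℕ → Coef n}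
    (hcs : ∀ k, (cs k).Unif lam B1) (ha : ∀ (k : ℕ) (x : E n), ‖x‖ < k → Agree (cs k) c x x)
    {fs zs : ℕ → E n → ℝ} (hs : ∀ k, Sys P (cs k) 1 (fs k) (zs k) ∧ Bdd B' (fs k) ∧ Bdd B' (zs k)) :
    ∃ (f z : E n → ℝ) (σ : ℕ → ℕ), StrictMono σ ∧ Sys P c 1 f z ∧ Bdd B' f ∧ Bdd B' z ∧
      ∀ x, Tendsto (fun k => fs (σ k) x) atTop (𝓝 (f x)) ∧
        Tendsto (fun k => zs (σ k) x) atTop (𝓝 (z x)) ∧
        ∀ i, Tendsto (fun k => pderiv i (fs (σ k)) x) atTop (𝓝 (pderiv i f x)) := by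
  have hF : Fam fun _ : Unit => bgOf P c 1 :=
    (fam n P hP he he1 lam B).reindex fun _ : Unit => ⟨(c, 1), hc, by simp⟩
  have hF' : Fam fun k : ℕ => bgOf P (cs k) 1 :=
    (fam n P hP he he1 lam B1).reindex fun k : ℕ => ⟨(cs k, 1), hcs k, by simp⟩
  obtain ⟨σ, f, z, hσ, hsol, hlim⟩ := An.limSol An.lim' n (fun k => (bgOf P (cs k) 1).sys)
    (bgOf P c 1).sys fs zs (adm n _ _ hF)
    (fun k => (sol n _ (hF'.reg k) _ _).2 ((gsys_bgOf _ _ _ _ _).2 (hs k).1))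
    (P1.uc_of_bdd fun k => (hs k).2.1) (P1.uc_of_bdd fun k => (hs k).2.2) (fun x => by
      filter_upwards [tendsto_natCast_atTop_atTop.eventually (eventually_gt_atTop ‖x‖)] with k hk
      have := hC n (bgOf P c 1) (bgOf P (cs k) 1) x 0 rfl (by
        filter_upwards [(isOpen_lt continuous_norm continuous_const).mem_nhds hk] with y hy
        rw [add_zero]
        exact (ha k y hy).bg P 1)
      simpa only [add_zero] using this)
  refine ⟨f, z, σ, hσ, (gsys_bgOf _ _ _ _ _).1 ((sol n _ (hF.reg ()) _ _).1 hsol),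
    bdd_lim (fun j => (hs (σ j)).2.1) hsol.sf fun k => (hlim k).1,
    bdd_lim (fun j => (hs (σ j)).2.2) hsol.sz fun k => (hlim k).2, fun x =>
    ⟨An.tendsto_val (hlim 0).1 x, An.tendsto_val (hlim 0).2 x,
      fun i => An.tendsto_pd (hlim 1).1 i x⟩⟩

theorem ex (hC : CongStmt) (hA : P1.APStmt) (hR : P1.RegStmt) (hT : P1.TorStmt) : P1.ExStmt := by
  intro n hn θ t0 t1 lam B hP
  obtain ⟨B1, hB1⟩ := P1.unif_comp (n := n) lam B
  obtain ⟨N, e1, he1, hAP⟩ := hA n hn θ t0 t1 lam B1 hP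
  refine ⟨N, min e1 (1 / 2), by positivity, fun e he hle M hM z3 hz3 => ?_⟩
  have hlt : e < 1 := lt_of_le_of_lt (hle.trans (min_le_right _ _)) (by norm_num)
  have hP' : (⟨θ, t0, t1, e, M, z3⟩ : Par).OK := ⟨hP.1, hP.2, hP.3, hP.4, hP.5⟩
  have hM0 : 0 ≤ M := le_trans (by positivity) hM
  obtain ⟨B0, hB0⟩ := hAP e he (hle.trans (min_le_left _ _)) M hM z3 hz3
  obtain ⟨B', hB'⟩ := hR n hn _ hP' he hlt lam B0 B1
  refine ⟨B', fun c hc => ?_⟩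
  obtain ⟨cs, hcs, ha⟩ := hB1 c hc
  have hL : ∀ k : ℕ, (1 : ℝ) ≤ 8 * (k + 1 : ℝ) := fun k => by
    have : (0 : ℝ) ≤ k := Nat.cast_nonneg k
    linarith
  have key : ∀ k : ℕ, ∀ t ∈ Icc (0 : ℝ) 1, ∀ f z : E n → ℝ, P1.Per (8 * (k + 1 : ℝ)) f →
      P1.Per (8 * (k + 1 : ℝ)) z → Sys ⟨θ, t0, t1, e, M, z3⟩ (cs k) t f z →
      Bdd B' f ∧ Bdd B' z := fun k t ht f z hf hz hs =>
    hB' (cs k) (hcs k).1 t ht _ f z (hL k) (hcs k).2 hf hz hs
      (hB0 (cs k) (hcs k).1 t ht _ f z (one_pos.trans_le (hL k)) (hcs k).2 hf hz hs)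
  have hex : ∀ k : ℕ, ∃ f z : E n → ℝ, Sys ⟨θ, t0, t1, e, M, z3⟩ (cs k) 1 f z ∧ Bdd B' f ∧
      Bdd B' z := fun k => by
    obtain ⟨f, z, hf, hz, hs⟩ := hT n hn _ hP' he hlt hM0 hz3 lam B1 (cs k) (hcs k).1 _ (hL k)
      (hcs k).2 ⟨B', key k⟩
    exact ⟨f, z, hs, key k 1 (by simp) f z hf hz hs⟩
  choose fs zs hs using hex
  obtain ⟨f, z, -, -, h1, h2, h3, -⟩ := close hC hP' he hlt hc (fun k => (hcs k).1) ha hs
  exact ⟨f, z, h1, h2, h3⟩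

theorem unif_zero {S : P1.Setup n} {an : E n → ℝ} {lam : ℝ} {B : ℕ → ℝ}
    (h : (S.coef an).Unif lam B) : (S.coef fun _ => 0).Unif lam B := by
  have hB : ∀ k, 0 ≤ B k := fun k =>
    (norm_nonneg _).trans ((h.bdd an (by simp [Coef.comps, P1.Setup.coef])).2 k 0)
  refine { h with bdd := fun u hu => ?_, an_mem := fun _ => by simp [P1.Setup.coef] }
  rcases hu with hu | hu | hu | hu | hu | hu | hu | hu | hu | hu
  · exact h.bdd u (Or.inl hu)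
  · exact h.bdd u (Or.inr (Or.inl hu))
  · exact h.bdd u (Or.inr (Or.inr (Or.inl hu)))
  iterate 6 exact h.bdd u (by rw [hu]; simp [Coef.comps, P1.Setup.coef])
  rw [hu]
  exact ⟨contDiff_const, fun k x => by
    simpa [P1.Setup.coef, iteratedFDeriv_fun_zero] using hB k⟩

theorem lim (hC : CongStmt) : P1.LimStmt := by
  intro n hn S hS e M z3 Λ L0 B he he1 hex
  obtain ⟨lam, B1, hU⟩ := P1.unif n hn S hS
  have hP : (S.par e M z3).OK := ⟨hS.par_ok.1, hS.par_ok.2, hS.par_ok.3, hS.par_ok.4, hS.par_ok.5⟩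
  let L : ℕ → ℝ := fun k => max (max L0 1) k
  have hL0 : ∀ k, L k ≥ L0 := fun k => (le_max_left _ _).trans (le_max_left _ _)
  have hL1 : ∀ k, L k ≥ 1 := fun k => (le_max_right _ _).trans (le_max_left _ _)
  choose fs zs hs using fun k => hex (L k) (hL0 k)
  obtain ⟨f, z, σ, -, h1, h2, h3, h4⟩ := close hC hP he he1 (unif_zero (hU 1 le_rfl))
    (cs := fun k => S.coef fun x => 1 - eta (L k) x) (fun k => hU _ (hL1 k))
    (fun k x hx => ⟨rfl, rfl, rfl, rfl, rfl, rfl, rfl, rfl, rfl, by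
      have : eta (L k) x = 1 := Bs.eta_eq_one (one_pos.trans_le (hL1 k))
        (hx.le.trans (le_max_right _ _))
      simp [P1.Setup.coef, this]⟩)
    (fun k => ⟨(hs k).1, (hs k).2.1, (hs k).2.2.1⟩)
  have hE := fun k => (hs (σ k)).2.2.2
  refine ⟨f, z, h1, h2, h3, fun x => ge_of_tendsto' (h4 x).2.1 fun k => (hE k).z_lo x,
    fun x => le_of_tendsto' ((Real.continuous_exp.tendsto _).comp (h4 x).2.1)
      fun k => (hE k).z_hi x, fun x => ?_,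
    fun x hx => le_of_tendsto' ((h4 x).1.const_mul _) fun k => (hE k).inner x hx,
    fun x hx => ge_of_tendsto' (h4 x).2.1 fun k => (hE k).far_z5 x hx,
    fun x hx => le_of_tendsto' (h4 x).1.abs fun k => (hE k).far_f x hx,
    fun x hx => le_of_tendsto' (h4 x).2.1.abs fun k => (hE k).far_z x hx⟩
  refine le_of_tendsto' (x := (atTop : Filter ℕ)) ?_ fun k => (hE k).gm_hi x
  have hφ : Continuous fun q : ℝ × ℝ => (S.par e M z3).phiF 1 ((S.coef fun _ => 0).a1 x)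
      ((S.coef fun _ => 0).a2 x) q.1 q.2 := by
    have h := fun a b => (P1.contDiff_cut a b).continuous
    unfold Par.phiF Par.chi Par.Ph
    fun_prop
  have hφ' := (hφ.tendsto (f x, z x)).comp ((h4 x).1.prodMk_nhds (h4 x).2.1)
  unfold gm Id.sq gam
  refine (tendsto_const_nhds.add ((hφ'.pow 2).mul (tendsto_finsetSum _ fun i _ =>
    tendsto_finsetSum _ fun j _ =>
      (tendsto_const_nhds.mul ((h4 x).2.2 i)).mul ((h4 x).2.2 j)))).sqrt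

end Crest.Agent.N346.Br

end
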