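import Crest.Agent.N346.Br.Defs
import Crest.Agent.N346.An.Per
import Crest.Agent.N346.Basic
import Crest.Agent.R238.MaxPOY

/-! Row 346, bridge, leaf B7 (helper8): `sch : SchStmt`. -/

set_option autoImplicit false

open Filter Topology Set
open scoped ContDiff
open Crest.GeometryTopology.CoordMetric Crest.MathPhysics.ExteriorData
open Crest.Agent.N346.An (Y0 Y1 st xi aD2)

noncomputable section

namespace Crest.Agent.N346.Br

variable {n : ℕ}

theorem max_test {u : E n → ℝ} (hu : ContDiff ℝ ∞ u) {x0 : E n} (h : ∀ x, u x ≤ u x0) :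
    (∀ i, pderiv i u x0 = 0) ∧ lap u x0 ≤ 0 := by
  have hm : IsLocalMax u x0 := Eventually.of_forall h
  refine ⟨fun i => by simp [pderiv, hm.fderiv_eq_zero], Finset.sum_nonpos fun i _ => ?_⟩
  rw [An.Lm.pd_pd_eq hu]
  exact R238.MaxP.second_deriv_nonpos_of_isLocalMax (hu.of_le (WithTop.coe_le_coe.2 le_top)) hm _

/-- a periodic function whose sign at critical points is that of its Laplacian vanishes -/
theorem per_zero {L : ℝ} (hL : 0 < L) {u : E n → ℝ} (hu : ContDiff ℝ ∞ u) (hp : An.Per L u)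
    (h : ∀ x, (∀ i, pderiv i u x = 0) → (lap u x ≤ 0 → u x ≤ 0) ∧ (0 ≤ lap u x → 0 ≤ u x)) :
    u = fun _ => 0 := by
  obtain ⟨x0, h0⟩ := hp.exists_max hL hu.continuous
  obtain ⟨x1, h1⟩ := (hp.comp fun t => -t).exists_max hL hu.continuous.neg
  obtain ⟨p0, q0⟩ := max_test hu h0
  obtain ⟨p1, q1⟩ := max_test hu.neg h1
  have e : ∀ i, pderiv i (fun x => -u x) = fun x => -pderiv i u x := fun i =>
    funext fun x => Bs.pd_neg u i x
  simp only [lap, e, Bs.pd_neg, Finset.sum_neg_distrib, neg_eq_zero, neg_nonpos] at p1 q1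
  have a0 := (h x0 p0).1 q0
  have a1 := (h x1 p1).2 q1
  funext x
  linarith [h0 x, h1 x]

/-- the flat background -/
def flat (Gs : Y0 n → ℝ) (τ : ℝ) : Bg n := ⟨fun _ => 1, fun _ => 0, fun _ => 1, Gs, τ⟩

theorem bgOf_zero (P : P1.Par) (c : P1.Coef n) :
    bgOf P c 0 = flat (fun y => y.2.2.1 + P.vt y.2.2.1) P.τ := by
  have h1 : c.gt 0 = fun _ => 1 := by funext x; simp [P1.Coef.gt]
  have h2 : c.Kt 0 = fun _ => 0 := by funext x; simp [P1.Coef.Kt]
  have h3 : bgΦ P c 0 = fun _ => 1 := by funext q; simp [bgΦ, P1.Par.phiF]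
  simp [bgOf, flat, h1, h2, h3]

theorem chr_one (x : E n) (k i j : Fin n) : christoffel (fun _ => 1) x k i j = 0 := by
  simp [christoffel, pderiv]

theorem ric_one (x : E n) (i j : Fin n) : ricci (fun _ => 1) x i j = 0 := by
  simp [ricci, chr_one, pderiv]

theorem dX_const (j : Fin n) (c : ℝ) : dX j (fun _ : Z n => c) = fun _ => 0 := by
  funext q; simp [dX]

theorem dF_const (c : ℝ) : dF (fun _ : Z n => c) = fun _ => 0 := by funext q; simp [dF]

theorem dZ_const (c : ℝ) : dZ (fun _ : Z n => c) = fun _ => 0 := by funext q; simp [dZ]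

theorem tot0_const (c : ℝ) (y : Y0 n) (j : Fin n) : tot0 (fun _ => c) y j = 0 := by
  simp [tot0, dX_const, dF_const]

theorem tot_const (c : ℝ) (Y : Y1 n) (j : Fin n) : tot (fun _ => c) Y j = 0 := by
  simp [tot, tot0_const, dZ_const]

section
variable {Gs : Y0 n → ℝ} {τ : ℝ} {y : Y0 n}

theorem gbi_flat (h : ∀ i, y.2.2.2 i = 0) : gbi (fun _ => 1) (fun _ => 1) y = 1 := by
  have : gb0 (fun _ => 1) (fun _ => 1) y = 1 := by ext i j; simp [gb0, h]
  rw [gbi, this, inv_one]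

theorem flat_a1 (h : ∀ i, y.2.2.2 i = 0) : (flat Gs τ).sys.a1 y = 1 := gbi_flat h

theorem flat_b1 (k : Fin n) : (flat Gs τ).sys.b1 y k = 0 := by
  simp [flat, Bg.sys, phz, dZ_const]

theorem flat_c1 (h : ∀ i, y.2.2.2 i = 0) : (flat Gs τ).sys.c1 y = τ * y.2.1 := by
  simp [flat, Bg.sys, Gp, h, gm0, sq0, ph]

theorem flat_a2 (h : ∀ i, y.2.2.2 i = 0) (i j : Fin n) :
    (flat Gs τ).sys.a2 y i j = 2 * (1 : Matrix (Fin n) (Fin n) ℝ) i j := by
  simp [flat, Bg.sys, gbi_flat h, phz, dZ_const]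

theorem flat_F2 {ξ : An.Xi n} (h1 : ∀ i, ξ.1 i = 0)
    (h2 : ∀ i j, ξ.2 i j = 0) : (flat Gs τ).sys.F2 (y, ξ) = Gs y := by
  simp [flat, Bg.sys, h1, h2, scalarCurv, ric_one, chr_one, rest, tot_const, H01, hh1, hx1, aa1,
    Gp, dX_const, dF_const, dZ_const]

end

theorem aD2_one {A : E n → Matrix (Fin n) (Fin n) ℝ} {u : E n → ℝ} {x : E n} {c : ℝ}
    (h : ∀ i j, A x i j = c * (1 : Matrix (Fin n) (Fin n) ℝ) i j) : aD2 A u x = c * lap u x := by
  simp [aD2, lap, h, Matrix.one_apply, Finset.mul_sum]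

theorem vt_nonneg {P : P1.Par} (hP : P.OK) (hM : 0 ≤ P.M) {z : ℝ} (hz : 0 ≤ z) : 0 ≤ P.vt z := by
  have h1 : P1.cut (-P.θ - 2) (-P.θ - 1) z = 1 := by
    refine Real.smoothTransition.one_of_one_le ?_
    rw [le_div_iff₀ (by linarith)]
    linarith [hP.θ_pos]
  rw [P1.Par.vt, h1, sub_self, mul_zero, zero_add]
  exact mul_nonneg hM (Real.smoothTransition.nonneg _)

theorem vt_nonpos {P : P1.Par} (hM : 0 ≤ P.M) (h3 : 0 ≤ P.z3) {z : ℝ} (hz : z ≤ 0) :
    P.vt z ≤ 0 := by
  have h1 : P1.cut P.z3 (P.z3 + 1) z = 0 :=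
    Real.smoothTransition.zero_of_nonpos (div_nonpos_of_nonpos_of_nonneg (by linarith)
      (by linarith))
  have h2 : P1.cut (-P.θ - 2) (-P.θ - 1) z ≤ 1 := Real.smoothTransition.le_one _
  rw [P1.Par.vt, h1, mul_zero, add_zero]
  exact mul_nonpos_of_nonpos_of_nonneg (neg_nonpos.2 hM) (sub_nonneg.2 h2)

theorem sch : SchStmt := by
  intro n P hP he hM h3 c L hL
  refine ⟨0, fun s hs f z hsol hf hz x => ?_⟩
  rw [bgOf_zero] at hsol
  have hτ : 0 < P.τ := pow_pos he 3
  have hco : 0 < (1 - s) + s * P.τ := by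
    rcases hs.1.eq_or_lt with h | h
    · rw [← h]; norm_num
    · exact add_pos_of_nonneg_of_pos (sub_nonneg.2 hs.2) (mul_pos h hτ)
  have hf0 : f = fun _ => 0 := by
    refine per_zero hL hsol.sf hf fun x hx => ?_
    have hx' : ∀ i, (st f z x).2.2.2 i = 0 := hx
    have e := hsol.e1 x
    rw [aD2_one (c := 1) fun i j => by
      simp only [An.Sys.sch, flat_a1 hx', one_mul]] at e
    simp only [An.Sys.sch, flat_b1, flat_c1 hx', mul_zero, zero_mul, Finset.sum_const_zero,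
      add_zero, one_mul] at e
    have e' : lap f x = ((1 - s) + s * P.τ) * f x := by rw [e]; simp only [st]; ring
    rw [e']
    exact ⟨fun h => nonpos_of_mul_nonpos_right h hco, fun h => nonneg_of_mul_nonneg_right h hco⟩
  subst hf0
  have e0 : ∀ i : Fin n, pderiv i (fun _ : E n => (0 : ℝ)) = fun _ => 0 := fun i => by
    funext x; simp [pderiv]
  have hz0 : z = fun _ => 0 := by
    refine per_zero hL hsol.sz hz fun x hx => ?_
    have hx' : ∀ i, (st (fun _ => 0) z x).2.2.2 i = 0 := fun i => by simp [st, pderiv]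
    have e := hsol.e2 x
    rw [aD2_one (c := 2) fun i j => by simp only [An.Sys.sch, flat_a2 hx']] at e
    simp only [An.Sys.sch] at e
    rw [flat_F2 hx fun i j => by simp [xi, e0]] at e
    simp only [st] at e
    constructor
    · intro h
      by_contra hc
      have h1 := mul_nonneg hs.1 (vt_nonneg hP hM (not_le.1 hc).le)
      linarith [not_le.1 hc]
    · intro h
      by_contra hc
      have h1 := mul_nonpos_of_nonneg_of_nonpos hs.1 (vt_nonpos hM h3 (not_le.1 hc).le)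
      linarith [not_le.1 hc]
  subst hz0
  simp [An.N1, st, xi, e0, Prod.norm_def, funext_iff]

end Crest.Agent.N346.Br

end
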