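import Crest.Agent.N346.Br.Defs
import Crest.Agent.N346.Id.Jang3
import Crest.Agent.N346.Basic

/-! Row 346, bridge: geometric quantities at `x` are state functions evaluated at the jet. -/

set_option autoImplicit false

open MeasureTheory Filter Topology Set
open scoped ContDiff
open Crest.GeometryTopology.CoordMetric Crest.MathPhysics.ExteriorData
open Crest.Agent.R202.Tens Crest.Agent.R247.Bo84
open Crest.Agent.N346.Id hiding xi
open Crest.Agent.N346.An (Y0 Y1 Xi st xi UB UC N0 N1 Pol Adm en gsq aD2)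
open Crest.Agent.N346.Bs

noncomputable section

namespace Crest.Agent.N346.Br

variable {n : ℕ} {f z : E n → ℝ} {Θ Φ : Z n → ℝ} {g : MetricField n}

/-- `Θ (x, f x, z x)` -/
def along (Θ : Z n → ℝ) (f z : E n → ℝ) : E n → ℝ := fun x => Θ (x, f x, z x)

@[simp] lemma prj_st (f z : E n → ℝ) (x : E n) : prj (st f z x) = (x, f x, z x) := rfl

lemma contDiff_dX (h : ContDiff ℝ ∞ Θ) (j : Fin n) : ContDiff ℝ ∞ (dX j Θ) :=
  (h.fderiv_right (m := ∞) (by simp)).clm_apply contDiff_const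

lemma contDiff_dF (h : ContDiff ℝ ∞ Θ) : ContDiff ℝ ∞ (dF Θ) :=
  (h.fderiv_right (m := ∞) (by simp)).clm_apply contDiff_const

lemma contDiff_dZ (h : ContDiff ℝ ∞ Θ) : ContDiff ℝ ∞ (dZ Θ) :=
  (h.fderiv_right (m := ∞) (by simp)).clm_apply contDiff_const

lemma contDiff_along (h : ContDiff ℝ ∞ Θ) (hf : ContDiff ℝ ∞ f) (hz : ContDiff ℝ ∞ z) :
    ContDiff ℝ ∞ (along Θ f z) :=
  h.comp (contDiff_id.prodMk (hf.prodMk hz))

lemma pd_along (h : ContDiff ℝ ∞ Θ) (hf : ContDiff ℝ ∞ f) (hz : ContDiff ℝ ∞ z) (j : Fin n)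
    (x : E n) : pderiv j (along Θ f z) x = tot Θ (st f z x, xi f z x) j := by
  have h1 : HasFDerivAt (fun y : E n => ((y, f y, z y) : Z n))
      ((ContinuousLinearMap.id ℝ (E n)).prod ((fderiv ℝ f x).prod (fderiv ℝ z x))) x :=
    (hasFDerivAt_id x).prodMk ((hf.differentiable (by simp) x).hasFDerivAt.prodMk
      (hz.differentiable (by simp) x).hasFDerivAt)
  have h2 := ((h.differentiable (by simp) (x, f x, z x)).hasFDerivAt.comp x h1).fderiv
  have h3 : along Θ f z = Θ ∘ fun y : E n => ((y, f y, z y) : Z n) := rfl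
  rw [pderiv, h3, h2]
  have e : (((ContinuousLinearMap.id ℝ (E n)).prod ((fderiv ℝ f x).prod (fderiv ℝ z x)))
      (EuclideanSpace.single j 1) : Z n) = (EuclideanSpace.single j 1, 0, 0)
        + pderiv j f x • ((0, 1, 0) : Z n) + pderiv j z x • ((0, 0, 1) : Z n) := by
    simp [pderiv]
  rw [ContinuousLinearMap.comp_apply, e, map_add, map_add, map_smul, map_smul]
  simp only [tot, tot0, dX, dF, dZ, smul_eq_mul, st, xi]
  simp only [prj]
  ring

lemma pd2_along (h : ContDiff ℝ ∞ Θ) (hf : ContDiff ℝ ∞ f) (hz : ContDiff ℝ ∞ z) (i j : Fin n)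
    (x : E n) : pderiv i (pderiv j (along Θ f z)) x
      = rest Θ (st f z x, xi f z x) i j + phz Θ (st f z x) * pderiv i (pderiv j z) x := by
  have e : pderiv j (along Θ f z) = fun y => along (dX j Θ) f z y
      + along (dF Θ) f z y * pderiv j f y + along (dZ Θ) f z y * pderiv j z y := by
    funext y
    rw [pd_along h hf hz]; rfl
  have d1 := (contDiff_along (contDiff_dX h j) hf hz).differentiable (by simp) x
  have d2 := (contDiff_along (contDiff_dF h) hf hz).differentiable (by simp) x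
  have d3 := (contDiff_along (contDiff_dZ h) hf hz).differentiable (by simp) x
  have d4 := (contDiff_pd hf j).differentiable (by simp) x
  have d5 := (contDiff_pd hz j).differentiable (by simp) x
  rw [e, pd_add (d1.fun_add (d2.fun_mul d4)) (d3.fun_mul d5), pd_add d1 (d2.fun_mul d4), pd_mul d2 d4,
    pd_mul d3 d5, pd_along (contDiff_dX h j) hf hz, pd_along (contDiff_dF h) hf hz,
    pd_along (contDiff_dZ h) hf hz]
  simp only [rest, phz, along, st, xi, prj]
  ring

/-- the coordinate Hessian -/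
lemma hessM_apply {u : E n → ℝ} {x : E n} (hu : ContDiffAt ℝ 2 u x) (i j : Fin n) :
    hessM g u x i j = pderiv i (pderiv j u) x - ∑ k, christoffel g x k i j * pderiv k u x := by
  have h1 : DifferentiableAt ℝ (fderiv ℝ u) x :=
    (hu.fderiv_right (m := 1) (by norm_num)).differentiableAt one_ne_zero
  have h2 : pderiv i (pderiv j u) x = fderiv ℝ (fderiv ℝ u) x (EuclideanSpace.single i 1)
      (EuclideanSpace.single j 1) := by
    have : pderiv j u = fun y => fderiv ℝ u y (EuclideanSpace.single j 1) := rfl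
    rw [pderiv, this, fderiv_clm_apply h1 (differentiableAt_const _)]
    simp
  rw [hessM, Matrix.of_apply, hess_apply, h2, R202.Tens.fderiv_eq_sum]
  congr 1
  refine Finset.sum_congr rfl fun k _ => ?_
  congr 1
  rw [Gam_apply, Finset.sum_eq_single i, Finset.sum_eq_single j]
  · simp
  · intro b _ hb; simp [hb]
  · simp
  · intro b _ hb; simp [hb]
  · simp

section rfls
variable (g Φ f z) (x : E n)

lemma ph_st : ph Φ (st f z x) = along Φ f z x := rfl
lemma sq0_st : sq0 g Φ (st f z x) = sq g (along Φ f z) f x := rfl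
lemma gm0_st : gm0 g Φ (st f z x) = gm g (along Φ f z) f x := rfl
lemma pp0_st : pp0 g Φ (st f z x) = pp g (along Φ f z) f x := rfl
lemma w0_st (i : Fin n) : w0 g Φ (st f z x) i = wv g (along Φ f z) f x i := rfl
lemma gb0_st : gb0 g Φ (st f z x) = gb g (along Φ f z) f x := rfl
lemma gbi_st : gbi g Φ (st f z x) = inverseField (gb g (along Φ f z) f) x := rfl
lemma eSq0_st (EE : VectorField n) :
    eSq0 g Φ EE (st f z x) = eSq (gb g (along Φ f z) f) EE x := rfl

end rfls

section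
variable (hΦ : ContDiff ℝ ∞ Φ) (hf : ContDiff ℝ ∞ f) (hz : ContDiff ℝ ∞ z) (x : E n)
include hΦ hf hz

lemma hh1_st (i j : Fin n) :
    hh1 g Φ (st f z x, xi f z x) i j = hh g (along Φ f z) f x i j := by
  rw [hh, Matrix.of_apply, hessM_apply (hf.contDiffAt.of_le (by norm_cast)), pd_along hΦ hf hz,
    pd_along hΦ hf hz]
  rfl

lemma pd_lv (hp : ∀ q, 0 < Φ q) (j : Fin n) :
    pderiv j (lv (along Φ f z)) x = tot Φ (st f z x, xi f z x) j / ph Φ (st f z x) := by
  have d := (contDiff_along hΦ hf hz).differentiable (by simp) x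
  have := pd_comp (Real.hasDerivAt_log (hp (x, f x, z x)).ne') d j
  rw [pd_along hΦ hf hz] at this
  rw [div_eq_inv_mul]
  exact this

lemma aa1_st (hp : ∀ q, 0 < Φ q) :
    aa1 g Φ (st f z x, xi f z x) = aa g (along Φ f z) f x := by
  rw [aa, R202.Tens.fderiv_eq_sum, aa1, Finset.sum_div]
  refine Finset.sum_congr rfl fun j _ => ?_
  rw [pd_lv hΦ hf hz x hp, mul_div_assoc]
  rfl

lemma H01_st : H01 g Φ (st f z x, xi f z x) = H0 g (along Φ f z) f x := by
  simp only [H01, hh1_st hΦ hf hz]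
  rfl

lemma hx1_st (hp : ∀ q, 0 < Φ q) (i j : Fin n) : hx1 g Φ (st f z x, xi f z x) i j
    = (hh g (along Φ f z) f x + aa g (along Φ f z) f x • XX (along Φ f z) f x) i j := by
  rw [hx1, hh1_st hΦ hf hz, aa1_st hΦ hf hz x hp]
  rfl

end

/-- the standing hypotheses of the identities -/
lemma Bg.Reg.jd {b : Bg n} (hb : b.Reg) (hf : ContDiff ℝ ∞ f) (hz : ContDiff ℝ ∞ z) :
    Jd b.g (along b.Φ f z) f univ :=
  ⟨hb.riem, (contDiff_along hb.Φ_smooth hf hz).contDiffOn, hf.contDiffOn, fun _ _ => hb.Φ_pos _⟩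

lemma Bg.Reg.symT {b : Bg n} (hb : b.Reg) : SymT b.K univ :=
  ⟨fun i j => (hb.K_smooth i j).contDiffOn, fun x _ => hb.K_symm x⟩

lemma Bg.φ_eq (b : Bg n) (f z : E n → ℝ) : b.φ f z = along b.Φ f z := rfl

/-- the design system is the geometric system of its background -/
lemma gsys_bgOf (P : P1.Par) (c : P1.Coef n) (t : ℝ) (f z : E n → ℝ) :
    (bgOf P c t).GSys f z ↔ P1.Sys P c t f z :=
  ⟨fun h => ⟨h.1, h.2, h.3, h.4⟩, fun h => ⟨h.1, h.2, h.3, h.4⟩⟩

/-- equation (J) in triangular form, at a point -/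
lemma e1_iff {b : Bg n} (hb : b.Reg) (hf : ContDiff ℝ ∞ f) (hz : ContDiff ℝ ∞ z) (x : E n) :
    (aD2 (fun y => b.sys.a1 (st f z y)) f x
      = b.sys.c1 (st f z x) + ∑ i, b.sys.b1 (st f z x) i * pderiv i z x)
    ↔ Th b.g (b.φ f z) f b.K x = b.τ * f x := by
  have hd := hb.jd hf hz
  have hφ : 0 < ph b.Φ (st f z x) := hb.Φ_pos _
  have hγ : 0 < gm0 b.g b.Φ (st f z x) := hd.gm_pos (mem_univ x)
  rw [Bg.φ_eq, Jd.Th_eq, ← H01_st hb.Φ_smooth hf hz]
  set y := st f z x with hy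
  set G := gbi b.g b.Φ y with hG
  have hK : traceK (gb b.g (along b.Φ f z) f) b.K x = ∑ i, ∑ j, G i j * b.K x i j := rfl
  set D := ∑ i, ∑ j, G i j * pderiv i (pderiv j f) x with hD
  set A := ∑ i, ∑ j, G i j * Gp b.g y i j with hA
  set T := ∑ i, ∑ j, G i j * (tot0 b.Φ y i * y.2.2.2 j + tot0 b.Φ y j * y.2.2.2 i) with hT
  set S := ∑ k, (∑ j, (G k j + G j k) * y.2.2.2 j) * pderiv k z x with hS
  have h1 : H01 b.g b.Φ (y, xi f z x) = (ph b.Φ y * (D - A) + T + phz b.Φ y * S)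
      / gm0 b.g b.Φ y := by
    have hS' : S = ∑ i, ∑ j, G i j * (pderiv i z x * y.2.2.2 j + pderiv j z x * y.2.2.2 i) := by
      simp only [hS, add_mul, mul_add, Finset.sum_add_distrib, Finset.sum_mul]
      congr 1
      · exact Finset.sum_congr rfl fun i _ => Finset.sum_congr rfl fun j _ => by ring
      · rw [Finset.sum_comm]
        exact Finset.sum_congr rfl fun i _ => Finset.sum_congr rfl fun j _ => by ring
    rw [hS', hD, hA, hT, ← Finset.sum_sub_distrib, Finset.mul_sum, Finset.mul_sum,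
      ← Finset.sum_add_distrib, ← Finset.sum_add_distrib, Finset.sum_div, H01]
    refine Finset.sum_congr rfl fun i _ => ?_
    rw [← Finset.sum_sub_distrib, Finset.mul_sum, Finset.mul_sum,
      ← Finset.sum_add_distrib, ← Finset.sum_add_distrib, Finset.sum_div]
    refine Finset.sum_congr rfl fun j _ => ?_
    simp only [hh1, tot, phz, xi, ← hG]
    ring
  have h2 : ∑ i, b.sys.b1 y i * pderiv i z x = -(phz b.Φ y / ph b.Φ y) * S := by
    rw [hS, Finset.mul_sum]
    exact Finset.sum_congr rfl fun i _ => by simp only [Bg.sys, ← hG]; ring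
  have h3 : b.sys.c1 y = A + gm0 b.g b.Φ y / ph b.Φ y * (b.τ * f x + ∑ i, ∑ j, G i j * b.K x i j)
      - T / ph b.Φ y := rfl
  have h4 : aD2 (fun y => b.sys.a1 (st f z y)) f x = D := rfl
  rw [h1, h2, h3, h4, hK]
  constructor
  · intro h
    field_simp at h ⊢
    linarith
  · intro h
    field_simp at h ⊢
    linarith

/-- equation (U) in triangular form, at a point -/
lemma e2_iff {b : Bg n} (hb : b.Reg) (hf : ContDiff ℝ ∞ f) (hz : ContDiff ℝ ∞ z) (x : E n) :
    (aD2 (fun y => b.sys.a2 (st f z y)) z x = b.sys.F2 (st f z x, xi f z x))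
    ↔ 2 * laplaceBeltrami (gb b.g (b.φ f z) f) z x + P1.al n * gam (gb b.g (b.φ f z) f) z z x
      = scalarCurv (gb b.g (b.φ f z) f) x + b.Gs (st f z x) := by
  have hd := hb.jd hf hz
  have hx := mem_univ x
  have hφ : 0 < ph b.Φ (st f z x) := hb.Φ_pos _
  have z2 : ContDiffAt ℝ 2 z x := hz.contDiffAt.of_le (by norm_cast)
  have φ2 := hd.cφ2 hx
  rw [Bg.φ_eq, hd.lap_gb hx z2, hd.id_G hx, lap_eq_traceK hb.riem hx φ2, ← bil_hessM,
    ← H01_st hb.Φ_smooth hf hz, ← aa1_st hb.Φ_smooth hf hz x hb.Φ_pos, ← pp0_st, ← ph_st]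
  set y := st f z x with hy
  set Y : Y1 n := (y, xi f z x) with hY
  set G := gbi b.g b.Φ y with hG
  set D := ∑ i, ∑ j, G i j * pderiv i (pderiv j z) x with hD
  set DP := ∑ i, ∑ j, Pi0 b.g b.Φ y i j * pderiv i (pderiv j z) x with hDP
  set A := ∑ i, ∑ j, G i j * ∑ k, christoffel b.g x k i j * pderiv k z x with hA
  set RR := ∑ i, ∑ j, Pi0 b.g b.Φ y i j
    * (rest b.Φ Y i j - ∑ k, christoffel b.g x k i j * tot b.Φ Y k) with hRR
  set V := ∑ i, ∑ j, G i j * tot b.Φ Y i * pderiv j z x with hV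
  have e1 : traceK (gb b.g (along b.Φ f z) f) (hessM b.g z) x = D - A := by
    rw [hD, hA, ← Finset.sum_sub_distrib, traceK]
    refine Finset.sum_congr rfl fun i _ => ?_
    rw [← Finset.sum_sub_distrib]
    refine Finset.sum_congr rfl fun j _ => ?_
    rw [hessM_apply z2, mul_sub]; rfl
  have e2 : gam (gb b.g (along b.Φ f z) f) z (lv (along b.Φ f z)) x = V / ph b.Φ y := by
    rw [gam_comm hd.riemb hx, gam, hV, Finset.sum_div]
    refine Finset.sum_congr rfl fun i _ => ?_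
    rw [Finset.sum_div]
    refine Finset.sum_congr rfl fun j _ => ?_
    rw [pd_lv hb.Φ_smooth hf hz x hb.Φ_pos, ← gbi_st]
    ring
  have e3 : fderiv ℝ z x (wv b.g (along b.Φ f z) f x) = ∑ j, w0 b.g b.Φ y j * pderiv j z x := by
    rw [R202.Tens.fderiv_eq_sum]; rfl
  have e4 : pp0 b.g b.Φ y * traceK b.g (hessM b.g (along b.Φ f z)) x
      - bil (hessM b.g (along b.Φ f z) x) (wv b.g (along b.Φ f z) f x)
        (wv b.g (along b.Φ f z) f x) = RR + phz b.Φ y * DP := by
    rw [hRR, hDP, traceK, bil_apply, Finset.mul_sum, Finset.mul_sum, ← Finset.sum_sub_distrib,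
      ← Finset.sum_add_distrib]
    refine Finset.sum_congr rfl fun i _ => ?_
    rw [Finset.mul_sum, Finset.mul_sum, ← Finset.sum_sub_distrib, ← Finset.sum_add_distrib]
    refine Finset.sum_congr rfl fun j _ => ?_
    rw [hessM_apply φ2, pd2_along hb.Φ_smooth hf hz]
    simp only [pd_along hb.Φ_smooth hf hz, Pi0, ← w0_st, ← hy, ← hY]
    have : y.1 = x := rfl
    rw [this]
    ring
  have e5 : normSqK (gb b.g (along b.Φ f z) f)
      (fun y => hh b.g (along b.Φ f z) f y + aa b.g (along b.Φ f z) f y • XX (along b.Φ f z) f y) x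
      = ∑ i, ∑ j, ∑ k, ∑ l, G i k * G j l * hx1 b.g b.Φ Y i j * hx1 b.g b.Φ Y k l := by
    simp only [normSqK, hY, hy, hx1_st hb.Φ_smooth hf hz x hb.Φ_pos]
    rfl
  have e6 : bil (ricM b.g x) (wv b.g (along b.Φ f z) f x) (wv b.g (along b.Φ f z) f x)
      = ∑ i, ∑ j, ricci b.g x i j * w0 b.g b.Φ y i * w0 b.g b.Φ y j := bil_ricM _ _ _ _
  have e7 : gam (gb b.g (along b.Φ f z) f) z z x
      = ∑ i, ∑ j, G i j * pderiv i z x * pderiv j z x := rfl
  have h4 : aD2 (fun y => b.sys.a2 (st f z y)) z x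
      = 2 * D + 2 * (phz b.Φ y / ph b.Φ y) * DP := by
    rw [hD, hDP, Finset.mul_sum, Finset.mul_sum, ← Finset.sum_add_distrib, aD2]
    refine Finset.sum_congr rfl fun i _ => ?_
    rw [Finset.mul_sum, Finset.mul_sum, ← Finset.sum_add_distrib]
    refine Finset.sum_congr rfl fun j _ => ?_
    simp only [Bg.sys, Matrix.of_apply, ← hy, ← hG]
    ring
  have h5 : b.sys.F2 Y = 2 * A - 2 * pp0 b.g b.Φ y * (V / ph b.Φ y)
      + 2 * H01 b.g b.Φ Y * (∑ j, w0 b.g b.Φ y j * pderiv j z x)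
      - P1.al n * (∑ i, ∑ j, G i j * pderiv i z x * pderiv j z x) + scalarCurv b.g x
      - 2 * (∑ i, ∑ j, ricci b.g x i j * w0 b.g b.Φ y i * w0 b.g b.Φ y j)
      - 2 * (RR / ph b.Φ y) + (H01 b.g b.Φ Y + pp0 b.g b.Φ y * aa1 b.g b.Φ Y) ^ 2
      - (∑ i, ∑ j, ∑ k, ∑ l, G i k * G j l * hx1 b.g b.Φ Y i j * hx1 b.g b.Φ Y k l)
      + b.Gs y := rfl
  rw [e1, e2, e3, e4, e5, e6, e7, h4, h5, add_div, mul_div_right_comm]
  constructor <;> intro h <;> linarith

theorem sol : SolStmt := fun _ _ hb _ _ =>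
  ⟨fun h => ⟨h.sf, h.sz, fun x => (e1_iff hb h.sf h.sz x).1 (h.e1 x),
      fun x => (e2_iff hb h.sf h.sz x).1 (h.e2 x)⟩,
    fun h => ⟨h.1, h.2, fun x => (e1_iff hb h.1 h.2 x).2 (h.jang x),
      fun x => (e2_iff hb h.1 h.2 x).2 (h.conf x)⟩⟩

end Crest.Agent.N346.Br

end
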