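import Crest.Agent.N346.Br.StrE
import Crest.Agent.N346.Br.UBL
import Crest.Agent.N346.Br.Eval

/-! Row 346, Br-3 (helper73): `str : StrStmt`. -/

set_option autoImplicit false

open scoped ContDiff Topology
open Filter Set
open Crest.GeometryTopology.CoordMetric Crest.MathPhysics.ExteriorData
open Crest.Agent.R202.Tens Crest.Agent.R247.Bo84 Crest.Agent.N346.Bs
open Crest.Agent.N346.Id hiding xi
open Crest.Agent.N346.An

noncomputable section

namespace Crest.Agent.N346.Br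

namespace Str

variable {n : ℕ} {ι : Type} {b : ι → Bg n} {f z : ι → E n → ℝ} {M : ℝ}

/-- the data at a point -/
def dt (b : ι → Bg n) (f z : ι → E n → ℝ) (p : ι × E n) : Dt n where
  g := (b p.1).g
  K := (b p.1).K
  φ := along (b p.1).Φ (f p.1) (z p.1)
  f := f p.1
  z := z p.1
  x := p.2
  τ := (b p.1).τ
  Gs := (b p.1).Gs (st (f p.1) (z p.1) p.2)
  s := phz (b p.1).Φ (st (f p.1) (z p.1) p.2)
  t := tot0 (b p.1).Φ (st (f p.1) (z p.1) p.2)

theorem b_of_ub (hM : ∀ a x, N0 (st (f a) (z a) x) ≤ M) {Θ : ι → Y0 n → ℝ} (h : UB N0 Θ) :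
    B fun p : ι × E n => Θ p.1 (st (f p.1) (z p.1) p.2) := by
  obtain ⟨C, -, h⟩ := h.bdd M
  exact B.of_le fun p => h _ _ (hM _ _)

theorem b_of_uc {u : ι → E n → ℝ} (h : UC u) : B fun p : ι × E n => u p.1 p.2 := by
  obtain ⟨C, -, h⟩ := h.bdd 0
  exact B.of_le fun p => h _ _ le_rfl

theorem pos_of_upos (hM : ∀ a x, N0 (st (f a) (z a) x) ≤ M) {Θ : ι → Y0 n → ℝ} (h : UPos N0 Θ) :
    Pos fun p : ι × E n => Θ p.1 (st (f p.1) (z p.1) p.2) := by
  obtain ⟨c, hc, h⟩ := h.2 M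
  exact ⟨c, hc, fun p => h _ _ (hM _ _)⟩

theorem uc_J (hb : Fam b) (i : Fin n) : UC fun a x => momentumDensity (b a).g (b a).K x i := by
  have hg := hb.gf.toGU
  exact (UB.sum _ fun j _ => UB.sum _ fun k _ => (hg.uc_inv j k).mul
    ((((hb.K_uc i j).pd k).sub (UB.sum _ fun l _ => (hg.uc_chr l k i).mul (hb.K_uc l j))).sub
      (UB.sum _ fun l _ => (hg.uc_chr l k j).mul (hb.K_uc i l)))).sub ((hg.uc_traceK hb.K_uc).pd i)

theorem fb (hb : Fam b) (hs : ∀ a, (b a).GSys (f a) (z a))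
    (hM : ∀ a x, N0 (st (f a) (z a) x) ≤ M) : FB (P1.al n) (dt b f z) where
  jd p := (hb.reg p.1).jd (hs p.1).f_smooth (hs p.1).z_smooth
  sym p := (hb.reg p.1).symT
  zs p := (hs p.1).z_smooth
  jang p := (hs p.1).jang
  conf p := (hs p.1).conf p.2
  dφ p i := pd_along (hb.reg p.1).Φ_smooth (hs p.1).f_smooth (hs p.1).z_smooth i p.2
  s0 p := hb.Φ_z _ _
  bf := b_of_ub hM ub_f
  bdf i := b_of_ub hM (ub_p i)
  bz := b_of_ub hM ub_z
  bτ := by
    obtain ⟨T, hT⟩ := hb.τ_bdd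
    exact B.of_le fun p => hT p.1
  bGs := b_of_ub hM hb.Gs_ub
  bs := b_of_ub hM hb.gf.phz
  bt i := b_of_ub hM (ub_tot0 hb.Φ_ub i)
  bφ := b_of_ub hM hb.gf.ph
  pφ := pos_of_upos hM hb.gf.upos_ph
  bγ := b_of_ub hM hb.gf.gm0
  bp := b_of_ub hM hb.gf.pp0
  bw i := b_of_ub hM (hb.gf.w0 i)
  bgi i j := b_of_uc (hb.gf.uc_inv i j)
  bGi i j := b_of_ub hM (hb.gf.gbi i j)
  ell := by
    obtain ⟨lo, hi, hlo, -, h⟩ := hb.gf.gbi_bounds M
    refine ⟨lo, hlo, fun p v => ?_⟩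
    have := ((h p.1 _ (hM p.1 p.2)).2 v).1
    simp only [pow_two] at this
    exact this
  bvol := b_of_ub hM hb.gf.sqrt_det_gb
  pvol := pos_of_upos hM hb.gf.upos_sqrt_det_gb
  bΓ k i j := b_of_uc (hb.gf.uc_chr k i j)
  bRic i j := b_of_uc (hb.gf.uc_ric i j)
  bK i j := b_of_uc (hb.K_uc i j)
  bJ i := b_of_uc (uc_J hb i)

theorem unif {P : Type} {W : P → ℝ} (hW : ∀ p, 0 ≤ W p) {u : Fin n → P → ℝ} (h : ∀ k, O W (u k)) :
    ∃ C, 0 ≤ C ∧ ∀ p k, |u k p| ≤ C * W p := by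
  choose C hC h using h
  refine ⟨∑ k, C k, Finset.sum_nonneg fun k _ => hC k, fun p k => (h k p).trans ?_⟩
  exact mul_le_mul_of_nonneg_right
    (Finset.single_le_sum (fun k _ => hC k) (Finset.mem_univ k)) (hW p)

end Str

open Str

theorem str : StrStmt := by
  rintro n hn ι b f z hb hs ⟨M, hM⟩
  have h := fb hb hs hM
  have hn' : (3 : ℝ) ≤ n := by exact_mod_cast hn
  have h0 : 0 < P1.al n := div_pos (by linarith) (by linarith)
  have h2 : P1.al n < 2 := by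
    rw [P1.al, div_lt_iff₀ (by linarith)]
    linarith
  obtain ⟨c₁, hc₁, C₁, hC₁, H₁⟩ := h.lowE h0 h2
  obtain ⟨l, c₂, hc₂, C₂, hC₂, H₂⟩ := h.lowG h0.le
  obtain ⟨c₃, hc₃, C₃, hC₃, H₃⟩ := h.low3 l
  obtain ⟨C₄, hC₄, H₄⟩ := unif (fun p => by positivity) (h.oVG l)
  obtain ⟨C₅, hC₅, H₅⟩ := unif (fun p => zero_le_one) (h.brem l)
  have hz : ∀ c : ℝ, UB N0 fun (_ : ι) (y : Y0 n) => Real.exp (c * y.2.2.1) := fun c =>
    (UB.const_mul c ub_z).exp
  refine ⟨min c₁ (min c₂ c₃), C₁ + C₂ + C₃ + C₄ + C₅,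
    fun a => (dt b f z (a, 0)).VE (P1.al n), fun a => (dt b f z (a, 0)).VG l,
    fun a y => ph (b a).Φ y * Real.exp (P1.al n * y.2.2.1) * Real.exp (l * y.2.2.1),
    fun a y j => 2 * (√(gb0 (b a).g (b a).Φ y).det * (ph (b a).Φ y * Real.exp (P1.al n * y.2.2.1)))
      * w0 (b a).g (b a).Φ y j,
    fun a y j => w0 (b a).g (b a).Φ y j, by positivity, (hb.gf.ph.mul (hz _)).mul (hz _),
    fun a y => ?_, fun k => (UB.const_mul 2 (hb.gf.sqrt_det_gb.mul (hb.gf.ph.mul (hz _)))).mul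
      (hb.gf.w0 k), hb.gf.w0,
    fun a k => contDiff_dens (h.jd (a, 0)).riemb
      (c_vE (h.jd (a, 0)) (h.sym (a, 0)) (h.zs (a, 0)) _) k,
    fun a k => contDiff_dens (h.jd (a, 0)).riemb (c_vG (h.jd (a, 0)) (h.zs (a, 0)) _) k,
    fun a x => ⟨?_, ?_, ?_, fun k => ?_, fun k => ?_⟩⟩
  · have := (hb.reg a).Φ_pos (prj y)
    unfold ph
    positivity
  · refine le_trans ?_ (H₁ (a, x))
    have := mul_le_mul_of_nonneg_right (min_le_left c₁ (min c₂ c₃)) (en_nonneg (f a) (z a) x)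
    change _ ≤ c₁ * en (f a) (z a) x - C₁
    linarith
  · have h1 : c₂ * en (f a) (z a) x - C₂ ≤ -divE ((dt b f z (a, 0)).VG l) x := H₂ (a, x)
    have := mul_le_mul_of_nonneg_right ((min_le_right c₁ (min c₂ c₃)).trans (min_le_left _ _))
      (en_nonneg (f a) (z a) x)
    linarith
  · refine le_trans ?_ (H₃ (a, x))
    have := mul_le_mul_of_nonneg_right ((min_le_right c₁ (min c₂ c₃)).trans (min_le_right _ _))
      (gsq_nonneg (z a) x)
    change _ ≤ c₃ * gsq (z a) x - C₃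
    linarith
  · exact (H₄ (a, x) k).trans (mul_le_mul_of_nonneg_right (by linarith) (by positivity))
  · exact (H₅ (a, x) k).trans (by linarith)

end Crest.Agent.N346.Br

end
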