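import Crest.Agent.N346.P1.Defs
import Crest.Agent.N346.An.Defs

/-!
Row 346, Part 1, BRIDGE between the geometric system (`P1.Sys`) and the abstract triangular
systems of `An`.  A background `Bg` is `(g, K, Φ, Gs, τ)`: the warping factor is
`φ x = Φ (x, f x, z x)` and the zeroth-order right-hand side is `Gs (x, f, z, df)`.
-/

set_option autoImplicit false

open MeasureTheory Filter Topology
open scoped ContDiff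
open Crest.GeometryTopology.CoordMetric Crest.MathPhysics.ExteriorData
open Crest.Agent.R202.Tens Crest.Agent.R247.Bo84 Crest.Agent.N346.Id
open Crest.Agent.N346.An (Y0 Y1 Xi st xi UB UC N0 N1 Pol Adm en gsq)

noncomputable section

namespace Crest.Agent.N346.Br

variable {n : ℕ}

/-- values of `(x, f, z)` -/
abbrev Z (n : ℕ) : Type := E n × ℝ × ℝ

def prj (y : Y0 n) : Z n := (y.1, y.2.1, y.2.2.1)

def dX (j : Fin n) (Θ : Z n → ℝ) (q : Z n) : ℝ := fderiv ℝ Θ q (EuclideanSpace.single j 1, 0, 0)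
def dF (Θ : Z n → ℝ) (q : Z n) : ℝ := fderiv ℝ Θ q (0, 1, 0)
def dZ (Θ : Z n → ℝ) (q : Z n) : ℝ := fderiv ℝ Θ q (0, 0, 1)

/-- the part of `∂ⱼ (Θ (x, f, z))` without `dz` -/
def tot0 (Θ : Z n → ℝ) (y : Y0 n) (j : Fin n) : ℝ := dX j Θ (prj y) + dF Θ (prj y) * y.2.2.2 j
/-- `∂ⱼ (Θ (x, f, z))` -/
def tot (Θ : Z n → ℝ) (Y : Y1 n) (j : Fin n) : ℝ := tot0 Θ Y.1 j + dZ Θ (prj Y.1) * Y.2.1 j

section
variable (g : MetricField n) (Φ : Z n → ℝ)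

def ph (y : Y0 n) : ℝ := Φ (prj y)
def phz (y : Y0 n) : ℝ := dZ Φ (prj y)
def sq0 (y : Y0 n) : ℝ := ph Φ y ^ 2 * ∑ i, ∑ j, inverseField g y.1 i j * y.2.2.2 i * y.2.2.2 j
def gm0 (y : Y0 n) : ℝ := Real.sqrt (1 + sq0 g Φ y)
def pp0 (y : Y0 n) : ℝ := sq0 g Φ y / (1 + sq0 g Φ y)
def w0 (y : Y0 n) (i : Fin n) : ℝ := ph Φ y / gm0 g Φ y * ∑ j, inverseField g y.1 i j * y.2.2.2 j
def gb0 (y : Y0 n) : Matrix (Fin n) (Fin n) ℝ :=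
  g y.1 + Matrix.of fun i j => ph Φ y ^ 2 * y.2.2.2 i * y.2.2.2 j
def gbi (y : Y0 n) : Matrix (Fin n) (Fin n) ℝ := (gb0 g Φ y)⁻¹
def Gp (y : Y0 n) (i j : Fin n) : ℝ := ∑ k, christoffel g y.1 k i j * y.2.2.2 k
def Pi0 (y : Y0 n) (i j : Fin n) : ℝ :=
  pp0 g Φ y * inverseField g y.1 i j - w0 g Φ y i * w0 g Φ y j
def hh1 (Y : Y1 n) (i j : Fin n) : ℝ :=
  (ph Φ Y.1 * (Y.2.2 i j - Gp g Y.1 i j) + tot Φ Y i * Y.1.2.2.2 j + tot Φ Y j * Y.1.2.2.2 i)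
    / gm0 g Φ Y.1
def aa1 (Y : Y1 n) : ℝ := (∑ j, w0 g Φ Y.1 j * tot Φ Y j) / ph Φ Y.1
def H01 (Y : Y1 n) : ℝ := ∑ i, ∑ j, gbi g Φ Y.1 i j * hh1 g Φ Y i j
/-- `∂ᵢ∂ⱼφ` without the term `Φ_z ∂ᵢ∂ⱼz` -/
def rest (Y : Y1 n) (i j : Fin n) : ℝ :=
  tot (dX j Φ) Y i + tot (dF Φ) Y i * Y.1.2.2.2 j + dF Φ (prj Y.1) * Y.2.2 i j
    + tot (dZ Φ) Y i * Y.2.1 j
def hx1 (Y : Y1 n) (i j : Fin n) : ℝ :=
  hh1 g Φ Y i j + aa1 g Φ Y * (ph Φ Y.1 ^ 2 * Y.1.2.2.2 i * Y.1.2.2.2 j)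
/-- `|Ē|²` -/
def eSq0 (EE : VectorField n) (y : Y0 n) : ℝ :=
  (∑ i, ∑ j, gb0 g Φ y i j * EE y.1 i * EE y.1 j) / (gb0 g Φ y).det

end

/-- A background. -/
structure Bg (n : ℕ) where
  g : MetricField n
  K : MetricField n
  Φ : Z n → ℝ
  Gs : Y0 n → ℝ
  τ : ℝ

namespace Bg
variable (b : Bg n)

def φ (f z : E n → ℝ) : E n → ℝ := fun x => b.Φ (x, f x, z x)

/-- the geometric system -/
structure GSys (f z : E n → ℝ) : Prop where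
  f_smooth : ContDiff ℝ ∞ f
  z_smooth : ContDiff ℝ ∞ z
  jang : ∀ x, Th b.g (b.φ f z) f b.K x = b.τ * f x
  conf : ∀ x, 2 * laplaceBeltrami (gb b.g (b.φ f z) f) z x
      + P1.al n * gam (gb b.g (b.φ f z) f) z z x
    = scalarCurv (gb b.g (b.φ f z) f) x + b.Gs (st f z x)

/-- the triangular form -/
def sys : An.Sys n where
  a1 := gbi b.g b.Φ
  b1 := fun y k => -(phz b.Φ y / ph b.Φ y)
    * ∑ j, (gbi b.g b.Φ y k j + gbi b.g b.Φ y j k) * y.2.2.2 j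
  c1 := fun y => (∑ i, ∑ j, gbi b.g b.Φ y i j * Gp b.g y i j)
    + gm0 b.g b.Φ y / ph b.Φ y * (b.τ * y.2.1 + ∑ i, ∑ j, gbi b.g b.Φ y i j * b.K y.1 i j)
    - (∑ i, ∑ j, gbi b.g b.Φ y i j
        * (tot0 b.Φ y i * y.2.2.2 j + tot0 b.Φ y j * y.2.2.2 i)) / ph b.Φ y
  a2 := fun y => Matrix.of fun i j =>
    2 * gbi b.g b.Φ y i j + 2 * (phz b.Φ y / ph b.Φ y) * Pi0 b.g b.Φ y i j
  F2 := fun Y =>
    2 * (∑ i, ∑ j, gbi b.g b.Φ Y.1 i j * ∑ k, christoffel b.g Y.1.1 k i j * Y.2.1 k)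
    - 2 * pp0 b.g b.Φ Y.1
        * ((∑ i, ∑ j, gbi b.g b.Φ Y.1 i j * tot b.Φ Y i * Y.2.1 j) / ph b.Φ Y.1)
    + 2 * H01 b.g b.Φ Y * (∑ j, w0 b.g b.Φ Y.1 j * Y.2.1 j)
    - P1.al n * (∑ i, ∑ j, gbi b.g b.Φ Y.1 i j * Y.2.1 i * Y.2.1 j)
    + scalarCurv b.g Y.1.1
    - 2 * (∑ i, ∑ j, ricci b.g Y.1.1 i j * w0 b.g b.Φ Y.1 i * w0 b.g b.Φ Y.1 j)
    - 2 * ((∑ i, ∑ j, Pi0 b.g b.Φ Y.1 i j
        * (rest b.Φ Y i j - ∑ k, christoffel b.g Y.1.1 k i j * tot b.Φ Y k)) / ph b.Φ Y.1)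
    + (H01 b.g b.Φ Y + pp0 b.g b.Φ Y.1 * aa1 b.g b.Φ Y) ^ 2
    - (∑ i, ∑ j, ∑ k, ∑ l, gbi b.g b.Φ Y.1 i k * gbi b.g b.Φ Y.1 j l
        * hx1 b.g b.Φ Y i j * hx1 b.g b.Φ Y k l)
    + b.Gs Y.1

/-- qualitative regularity of one background -/
structure Reg : Prop where
  riem : IsRiemannianOn b.g Set.univ
  K_smooth : ∀ i j, ContDiff ℝ ∞ fun x => b.K x i j
  K_symm : ∀ x i j, b.K x i j = b.K x j i
  Φ_smooth : ContDiff ℝ ∞ b.Φ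
  Φ_pos : ∀ q, 0 < b.Φ q

end Bg

/-- uniformly admissible families of backgrounds -/
structure Fam {ι : Type} (b : ι → Bg n) : Prop where
  reg : ∀ a, (b a).Reg
  g_uc : ∀ i j, UC fun a x => (b a).g x i j
  g_lo : ∃ lam > (0 : ℝ), ∀ a x v, lam * ‖v‖ ^ 2 ≤ quadForm (b a).g x v
  K_uc : ∀ i j, UC fun a x => (b a).K x i j
  Φ_ub : UB (fun q : Z n => ‖q.2‖) fun a => (b a).Φ
  Φ_lo : ∃ d > (0 : ℝ), ∀ a q, d ≤ (b a).Φ q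
  Φ_z : ∀ a q, 0 ≤ dZ (b a).Φ q
  Gs_ub : UB N0 fun a => (b a).Gs
  τ_bdd : ∃ T, ∀ a, |(b a).τ| ≤ T

/-- the background of the design at homotopy time `t` -/
def bgΦ (P : P1.Par) (c : P1.Coef n) (t : ℝ) : Z n → ℝ :=
  fun q => P.phiF t (c.a1 q.1) (c.a2 q.1) q.2.1 q.2.2

def bgOf (P : P1.Par) (c : P1.Coef n) (t : ℝ) : Bg n where
  g := c.gt t
  K := c.Kt t
  Φ := bgΦ P c t
  τ := P.τ
  Gs := fun y =>
    t * (-((P.τ * y.2.1) ^ 2 + P.τ * pp0 (c.gt t) (bgΦ P c t) y + 2 * c.mw y.1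
          + 2 * eSq0 (c.gt t) (bgΦ P c t) c.EE y)
        - P.sz y.2.2.1 * c.cw y.1
        + (1 - P.sz y.2.2.1) * ((P.e ^ 6)⁻¹ * P.dd (c.b1 y.1) (c.b2 y.1) (P.τ * y.2.1))
        + c.an y.1 * y.2.2.1)
      + (1 - t) * y.2.2.1 + P.vt y.2.2.1

/-! ### Leaves -/

/-- B1: the triangular form is equivalent to the geometric form. -/
def SolStmt : Prop := ∀ (n : ℕ) (b : Bg n), b.Reg → ∀ f z : E n → ℝ,
  b.sys.Sol f z ↔ b.GSys f z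

/-- B2: admissibility. -/
def AdmStmt : Prop := ∀ (n : ℕ) (ι : Type) (b : ι → Bg n), Fam b → Adm fun a => (b a).sys

/-- B3: the structure inequalities needed by the regularity theorem. -/
def StrStmt : Prop := ∀ (n : ℕ), 3 ≤ n → ∀ (ι : Type) (b : ι → Bg n) (f z : ι → E n → ℝ), Fam b →
  (∀ a, (b a).GSys (f a) (z a)) → (∃ M : ℝ, ∀ a x, N0 (st (f a) (z a) x) ≤ M) →
  ∃ (c C : ℝ) (VE VG : ι → VectorField n) (ρ : ι → Y0 n → ℝ)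
      (W1 W2 : ι → Y0 n → Fin n → ℝ), 0 < c ∧ UB N0 ρ ∧ (∀ i y, 0 ≤ ρ i y) ∧
    (∀ k, UB N0 fun i y => W1 i y k) ∧ (∀ k, UB N0 fun i y => W2 i y k) ∧
    (∀ i k, ContDiff ℝ 1 fun x => VE i x k) ∧ (∀ i k, ContDiff ℝ 1 fun x => VG i x k) ∧
    ∀ i x, c * en (f i) (z i) x - C ≤ divE (VE i) x ∧
      divE (VG i) x ≤ C - c * en (f i) (z i) x ∧
      c * gsq (z i) x - C ≤ ∑ k, VG i x k * pderiv k (z i) x ∧
      (∀ k, |VG i x k| ≤ C * (1 + √(gsq (z i) x))) ∧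
      ∀ k, |VE i x k - ρ i (st (f i) (z i) x) * VG i x k
        - ∑ j, (W1 i (st (f i) (z i) x) j * pderiv j (fun y => W2 i (st (f i) (z i) y) k) x
          - W1 i (st (f i) (z i) x) k * pderiv j (fun y => W2 i (st (f i) (z i) y) j) x)| ≤ C

/-- B4: the coefficients at `x` only depend on the germ of the background, up to a translation. -/
def CongStmt : Prop := ∀ (n : ℕ) (b b' : Bg n) (x v : E n), b'.τ = b.τ →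
  (∀ᶠ y in 𝓝 x, b'.g (y + v) = b.g y ∧ b'.K (y + v) = b.K y ∧
    (∀ s, b'.Φ (y + v, s) = b.Φ (y, s)) ∧ ∀ s, b'.Gs (y + v, s) = b.Gs (y, s)) →
  ∀ s, b'.sys.a1 (x + v, s) = b.sys.a1 (x, s) ∧ b'.sys.b1 (x + v, s) = b.sys.b1 (x, s) ∧
    b'.sys.c1 (x + v, s) = b.sys.c1 (x, s) ∧ b'.sys.a2 (x + v, s) = b.sys.a2 (x, s) ∧
    ∀ ξ, b'.sys.F2 ((x + v, s), ξ) = b.sys.F2 ((x, s), ξ)

/-- B5: the design gives admissible families. -/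
def FamStmt : Prop := ∀ (n : ℕ) (P : P1.Par), P.OK → 0 < P.e → P.e < 1 →
  ∀ (lam : ℝ) (B : ℕ → ℝ),
  Fam fun a : {a : P1.Coef n × ℝ // a.1.Unif lam B ∧ a.2 ∈ Set.Icc (0 : ℝ) 1} =>
    bgOf P a.1.1 a.1.2

/-- B6: continuity in the homotopy parameter. -/
def ContStmt : Prop := ∀ (n : ℕ) (P : P1.Par), P.OK → 0 < P.e → P.e < 1 →
  ∀ (lam : ℝ) (B : ℕ → ℝ) (c : P1.Coef n), c.Unif lam B → An.SysCont fun t => (bgOf P c t).sys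

/-- B7: the Schaefer stage at `t = 0` has only the zero solution. -/
def SchStmt : Prop := ∀ (n : ℕ) (P : P1.Par), P.OK → 0 < P.e → 0 ≤ P.M → 0 ≤ P.z3 →
  ∀ (c : P1.Coef n) (L : ℝ), 0 < L → An.APri L (bgOf P c 0).sys.sch

end Crest.Agent.N346.Br

end
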