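import Crest.Agent.N346.Id.Jang3
import Crest.Agent.N346.Id.Flat

/-! Row 346, Br-3 (helper73): the two vector fields of the regularity theorem, exact formulas. -/

set_option autoImplicit false

open scoped ContDiff Topology
open Filter Set
open Crest.GeometryTopology.CoordMetric Crest.MathPhysics.ExteriorData
open Crest.Agent.R202.Tens Crest.Agent.R247.Bo84 Crest.Agent.N346.Id

noncomputable section

namespace Crest.Agent.N346.Br.Str

variable {n : ℕ} {g K : MetricField n} {φ f z : E n → ℝ} {x : E n}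

local notation "ḡ" => gb g φ f
local notation "𝓌" => wv g φ f
local notation "𝒽" => hh g φ f
local notation "γ" => gm g φ f
local notation "𝓅" => pp g φ f
local notation "𝒶" => aa g φ f
local notation "𝒱" => Vv g φ f
local notation "𝒬" => Qv g φ f
local notation "𝔓" => Pv g φ f
local notation "ℋ" => H0 g φ f
local notation "𝒵" => ZZ g φ f K
local notation "Θ" => Th g φ f K
local notation "𝓆" => qv g φ f K

/-- a vector density -/
def dens (G : MetricField n) (V : E n → E n) : VectorField n := fun y k => √(G y).det * V y k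

theorem divE_dens {G : MetricField n} (hG : IsRiemannianOn G univ) (V : E n → E n) (x : E n) :
    divE (dens G V) x = √(G x).det * divg G V x := by
  have := Real.sqrt_pos.2 (det_pos hG (mem_univ x))
  simp only [divE, dens, divg]
  field_simp

theorem contDiff_dens {G : MetricField n} (hG : IsRiemannianOn G univ) {V : E n → E n}
    (hV : ∀ x, ContDiffAt ℝ ∞ V x) (k : Fin n) : ContDiff ℝ 1 fun y => dens G V y k := by
  refine contDiff_iff_contDiffAt.2 fun x => ContDiffAt.of_le ?_ (show (1 : WithTop ℕ∞) ≤ ∞ by simp)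
  exact (contDiffAt_sqrt_det hG (mem_univ x)).mul
    ((EuclideanSpace.proj k : E n →L[ℝ] ℝ).contDiff.contDiffAt.comp x (hV x))

section
variable (g φ f K z)

def vE (α : ℝ) : E n → E n := fun y =>
  Real.exp (α * z y) • ((2 : ℝ) • (φ y • 𝓆 y) + (2 * φ y) • grad ḡ z y)

def vG (l : ℝ) : E n → E n := fun y =>
  Real.exp (-(l * z y)) • ((2 : ℝ) • grad ḡ z y + (2 : ℝ) • 𝔓 y)

end

theorem c_gradz (hd : Jd g φ f univ) (hz : ContDiff ℝ ∞ z) (x : E n) :
    ContDiffAt ℝ ∞ (grad ḡ z) x :=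
  contDiffAt_grad hd.riemb (mem_univ x) hz.contDiffAt (by simp) le_rfl

theorem c_vE (hd : Jd g φ f univ) (hK : SymT K univ) (hz : ContDiff ℝ ∞ z) (α : ℝ) (x : E n) :
    ContDiffAt ℝ ∞ (vE g K φ f z α) x :=
  ((contDiffAt_const.mul hz.contDiffAt).exp).smul
    ((((hd.cφ (mem_univ x)).smul (hd.c_qv hK (mem_univ x))).const_smul _).add
      ((contDiffAt_const.mul (hd.cφ (mem_univ x))).smul (c_gradz hd hz x)))

theorem c_vG (hd : Jd g φ f univ) (hz : ContDiff ℝ ∞ z) (l : ℝ) (x : E n) :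
    ContDiffAt ℝ ∞ (vG g φ f z l) x :=
  ((contDiffAt_const.mul hz.contDiffAt).neg.exp).smul
    (((c_gradz hd hz x).const_smul _).add ((hd.c_Pv (mem_univ x)).const_smul _))

theorem divg_const_smul {G : MetricField n} (hG : IsRiemannianOn G univ) (c : ℝ) {V : E n → E n}
    (hV : DifferentiableAt ℝ V x) : divg G (fun y => c • V y) x = c * divg G V x := by
  rw [divg_smul (h := fun _ => c) hG (mem_univ x) (differentiableAt_const c) hV]
  simp

theorem fderiv_exp_mul (hz : ContDiff ℝ ∞ z) (c : ℝ) (x Y : E n) :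
    fderiv ℝ (fun y => Real.exp (c * z y)) x Y = Real.exp (c * z x) * (c * fderiv ℝ z x Y) := by
  have h := ((hz.differentiable (by simp) x).hasFDerivAt.const_mul c).exp
  rw [h.fderiv]
  simp

/-- the divergence of the first field -/
theorem divg_vE (hd : Jd g φ f univ) (hK : SymT K univ) (hz : ContDiff ℝ ∞ z) {α τ Gs : ℝ}
    (hj : ∀ y, Θ y = τ * f y)
    (hc : 2 * laplaceBeltrami ḡ z x + α * gam ḡ z z x = scalarCurv ḡ x + Gs) :
    divg ḡ (vE g K φ f z α) x = φ x * Real.exp (α * z x) *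
      (normSqK ḡ 𝒵 x + (2 * bil (ḡ x) (𝓆 x) (𝓆 x) + 2 * α * fderiv ℝ z x (𝓆 x) + α * gam ḡ z z x)
        + 2 * (gam ḡ φ z x / φ x)
        + (2 * (energyDensity g K x - Jw g K x (𝓌 x)) + (τ * f x) ^ 2
          + 2 * (τ * f x) * traceK g K x + 2 * (τ * fderiv ℝ f x (𝓌 x)) + Gs)) := by
  have hx := mem_univ x
  have hφ := hd.φ_pos x hx
  have d1 : DifferentiableAt ℝ (fun y => φ y • 𝓆 y) x :=
    ((hd.cφ hx).smul (hd.c_qv hK hx)).differentiableAt (by simp)
  have d2 : DifferentiableAt ℝ (grad ḡ z) x := (c_gradz hd hz x).differentiableAt (by simp)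
  have d3 : DifferentiableAt ℝ (fun y => 2 * φ y) x := (hd.dφ hx).const_mul 2
  have d4 : DifferentiableAt ℝ (fun y => Real.exp (α * z y)) x :=
    ((hz.differentiable (by simp) x).const_mul α).exp
  have eΘ : fderiv ℝ Θ x (𝓌 x) = τ * fderiv ℝ f x (𝓌 x) := by
    rw [show Θ = fun y => τ * f y from funext hj,
      fderiv_const_mul ((hd.cf hx).differentiableAt (by simp))]
    simp
  have hE := hd.id_E hK hx
  rw [eΘ, hj] at hE
  unfold vE
  rw [divg_smul hd.riemb hx d4 ((d1.fun_const_smul _).fun_add (d3.fun_smul d2)),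
    divg_add hd.riemb hx (d1.fun_const_smul _) (d3.fun_smul d2), divg_const_smul hd.riemb 2 d1,
    divg_smul hd.riemb hx d3 d2, divg_grad, fderiv_exp_mul hz,
    fderiv_const_mul (hd.dφ hx)]
  simp only [map_add, map_smul, smul_eq_mul, smul_apply]
  rw [← gam_eq_fderiv_grad, ← gam_eq_fderiv_grad]
  have e1 : divg ḡ (fun y => φ y • 𝓆 y) x = φ x * (divg ḡ (fun y => φ y • 𝓆 y) x / φ x) := by
    field_simp
  have e2 : gam ḡ φ z x = φ x * (gam ḡ φ z x / φ x) := by field_simp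
  rw [e1]
  set A := divg ḡ (fun y => φ y • 𝓆 y) x / φ x
  set C := gam ḡ φ z x / φ x
  rw [e2]
  linear_combination (φ x * Real.exp (α * z x)) * hc + (φ x * Real.exp (α * z x)) * hE

/-- completing the square -/
theorem square_le (hd : Jd g φ f univ) (α : ℝ) (q : E n) :
    (α - α ^ 2 / 2) * gam ḡ z z x
      ≤ 2 * bil (ḡ x) q q + 2 * α * fderiv ℝ z x q + α * gam ḡ z z x := by
  have hx := mem_univ x
  have h := bil_self_nonneg hd.riemb hx (q + (α / 2) • grad ḡ z x)
  simp only [map_add, map_smul, add_apply, smul_apply,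
    smul_eq_mul] at h
  rw [bil_symm hd.riemb hx q (grad ḡ z x), ← gam_eq_bil hd.riemb hx, bil_grad hd.riemb hx] at h
  linarith

/-- the divergence of the second field -/
theorem divg_vG (hd : Jd g φ f univ) (hz : ContDiff ℝ ∞ z) {α Gs : ℝ} (l : ℝ)
    (hc : 2 * laplaceBeltrami ḡ z x + α * gam ḡ z z x = scalarCurv ḡ x + Gs) :
    -divg ḡ (vG g φ f z l) x = Real.exp (-(l * z x)) *
      (normSqK ḡ 𝒽 x - 2 * (1 - 𝓅 x) * bil (𝒽 x) (𝓌 x) (𝒱 x) + 2 * l * gam ḡ z z x
        + α * gam ḡ z z x + 2 * l * fderiv ℝ z x (𝔓 x)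
        + (2 * (1 - 𝓅 x) * ℋ x * 𝒶 x
          - (Gs + scalarCurv g x - 2 * bil (ricM g x) (𝓌 x) (𝓌 x) + ℋ x ^ 2))) := by
  have hx := mem_univ x
  have d1 : DifferentiableAt ℝ 𝔓 x := (hd.c_Pv hx).differentiableAt (by simp)
  have d2 : DifferentiableAt ℝ (grad ḡ z) x := (c_gradz hd hz x).differentiableAt (by simp)
  have e : (fun y => Real.exp (-(l * z y))) = fun y => Real.exp (-l * z y) := by
    simp only [neg_mul]
  have d4 : DifferentiableAt ℝ (fun y => Real.exp (-(l * z y))) x :=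
    ((hz.differentiable (by simp) x).const_mul l).neg.exp
  have hG := hd.id_GD hx
  rw [hd.gb_Qv hx] at hG
  unfold vG
  rw [divg_smul hd.riemb hx d4 ((d2.fun_const_smul _).fun_add (d1.fun_const_smul _)),
    divg_add hd.riemb hx (d2.fun_const_smul _) (d1.fun_const_smul _), divg_const_smul hd.riemb 2 d1,
    divg_const_smul hd.riemb 2 d2, divg_grad, e, fderiv_exp_mul hz]
  simp only [map_add, map_smul, smul_eq_mul, neg_mul]
  rw [← gam_eq_fderiv_grad]
  linear_combination (-Real.exp (-(l * z x))) * hc - Real.exp (-(l * z x)) * hG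

theorem pderiv_lv (hd : Jd g φ f univ) (j : Fin n) : pderiv j (lv φ) x = pderiv j φ x / φ x :=
  hd.fderiv_lv (mem_univ x) _

theorem fderiv_eq_sum (u : E n → ℝ) (x Y : E n) : fderiv ℝ u x Y = ∑ i, Y i * pderiv i u x :=
  clm_eq_sum _ _

/-- `dz (P)` -/
theorem dz_Pv (hd : Jd g φ f univ) {t : Fin n → ℝ} {s : ℝ} (hs : 0 ≤ s)
    (hφ : ∀ i, pderiv i φ x = t i + s * pderiv i z x) :
    ∑ i, ∑ j, (𝓅 x * inverseField g x i j - 𝓌 x i * 𝓌 x j) * (t j / φ x) * pderiv i z x
      ≤ fderiv ℝ z x (𝔓 x) := by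
  have hx := mem_univ x
  have hp := hd.φ_pos x hx
  have h1 : fderiv ℝ z x (𝓌 x) ^ 2 ≤ 𝓅 x * gam g z z x := by
    have := bil_sq_le hd.riem hx (grad g z x) (𝓌 x)
    rwa [bil_grad hd.riem hx, ← gam_eq_bil hd.riem hx, hd.bil_wv_wv hx, mul_comm] at this
  have h2 : fderiv ℝ z x (𝔓 x) =
      ∑ i, ∑ j, (𝓅 x * inverseField g x i j - 𝓌 x i * 𝓌 x j) * (t j / φ x) * pderiv i z x
      + s / φ x * (𝓅 x * gam g z z x - fderiv ℝ z x (𝓌 x) ^ 2) := by
    have e1 : ∀ j, pderiv j (lv φ) x = t j / φ x + s / φ x * pderiv j z x := fun j => by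
      rw [pderiv_lv hd, hφ]; ring
    have e2 : gam g z (lv φ) x = ∑ i, ∑ j, inverseField g x i j * (t j / φ x) * pderiv i z x
        + s / φ x * gam g z z x := by
      simp only [gam, e1, Finset.mul_sum, ← Finset.sum_add_distrib]
      exact Finset.sum_congr rfl fun i _ => Finset.sum_congr rfl fun j _ => by ring
    have e3 : 𝒶 x = ∑ j, 𝓌 x j * (t j / φ x) + s / φ x * fderiv ℝ z x (𝓌 x) := by
      simp only [aa, fderiv_eq_sum, e1, Finset.mul_sum, ← Finset.sum_add_distrib]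
      exact Finset.sum_congr rfl fun i _ => by ring
    have e4 : ∑ i, ∑ j, (𝓅 x * inverseField g x i j - 𝓌 x i * 𝓌 x j) * (t j / φ x) * pderiv i z x
        = 𝓅 x * ∑ i, ∑ j, inverseField g x i j * (t j / φ x) * pderiv i z x
          - fderiv ℝ z x (𝓌 x) * ∑ j, 𝓌 x j * (t j / φ x) := by
      rw [fderiv_eq_sum, Finset.sum_mul_sum]
      simp only [Finset.mul_sum, ← Finset.sum_sub_distrib]
      exact Finset.sum_congr rfl fun i _ => Finset.sum_congr rfl fun j _ => by ring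
    rw [Pv, map_sub, map_smul, map_smul, ← gam_eq_fderiv_grad, e2, e3, e4, smul_eq_mul, smul_eq_mul]
    ring
  rw [h2]
  exact le_add_of_nonneg_right (mul_nonneg (div_nonneg hs hp.le) (sub_nonneg.2 h1))

/-- `⟨dφ, dz⟩` -/
theorem gam_φ (hd : Jd g φ f univ) {t : Fin n → ℝ} {s : ℝ} (hs : 0 ≤ s)
    (hφ : ∀ i, pderiv i φ x = t i + s * pderiv i z x) :
    ∑ i, ∑ j, inverseField ḡ x i j * t i * pderiv j z x ≤ gam ḡ φ z x := by
  have h2 : gam ḡ φ z x = ∑ i, ∑ j, inverseField ḡ x i j * t i * pderiv j z x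
      + s * gam ḡ z z x := by
    simp only [gam, hφ, Finset.mul_sum, ← Finset.sum_add_distrib]
    exact Finset.sum_congr rfl fun i _ => Finset.sum_congr rfl fun j _ => by ring
  rw [h2]
  exact le_add_of_nonneg_right (mul_nonneg hs (gam_self_nonneg hd.riemb (mem_univ x) z))

/-- the Hessian of `f` -/
theorem hess_f (hd : Jd g φ f univ) (i j : Fin n) :
    pderiv i (pderiv j f) x = γ x / φ x * 𝒽 x i j
      + (∑ k, christoffel g x k i j * pderiv k f x
        - (pderiv i φ x * pderiv j f x + pderiv j φ x * pderiv i f x) / φ x) := by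
  have hx := mem_univ x
  have := hd.φ_pos x hx
  have := hd.gm_pos hx
  simp only [hh, Matrix.of_apply, hessM_apply g (hd.cf2 hx)]
  field_simp
  ring

theorem sum_vG (l : ℝ) :
    ∑ k, dens ḡ (vG g φ f z l) x k * pderiv k z x =
      √(ḡ x).det * Real.exp (-(l * z x)) * (2 * gam ḡ z z x + 2 * fderiv ℝ z x (𝔓 x)) := by
  have : ∑ k, dens ḡ (vG g φ f z l) x k * pderiv k z x
      = √(ḡ x).det * fderiv ℝ z x (vG g φ f z l x) := by
    simp only [fderiv_eq_sum, dens, Finset.mul_sum, mul_assoc]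
  rw [this, vG]
  simp only [map_add, map_smul, smul_eq_mul]
  rw [← gam_eq_fderiv_grad]
  ring

theorem pderiv_comp (hd : Jd g φ f univ) (j k : Fin n) :
    pderiv j (fun y => 𝓌 y k) x = fderiv ℝ 𝓌 x (ee j) k := by
  have h := (EuclideanSpace.proj k : E n →L[ℝ] ℝ).hasFDerivAt.comp x
    ((hd.c_wv (mem_univ x)).differentiableAt (by simp)).hasFDerivAt
  exact congrArg (fun L : E n →L[ℝ] ℝ => L (ee j)) h.fderiv

/-- the null Lagrangian structure of the difference -/
theorem vE_sub (hd : Jd g φ f univ) (α l : ℝ) (k : Fin n) :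
    dens ḡ (vE g K φ f z α) x k
      - φ x * Real.exp (α * z x) * Real.exp (l * z x) * dens ḡ (vG g φ f z l) x k
      - ∑ j, (2 * (√(ḡ x).det * (φ x * Real.exp (α * z x))) * 𝓌 x j * pderiv j (fun y => 𝓌 y k) x
        - 2 * (√(ḡ x).det * (φ x * Real.exp (α * z x))) * 𝓌 x k * pderiv j (fun y => 𝓌 y j) x)
    = 2 * (√(ḡ x).det * (φ x * Real.exp (α * z x))) *
      (∑ i, ∑ j, christoffel g x k i j * 𝓌 x i * 𝓌 x j
        - (∑ j, ∑ i, christoffel g x j j i * 𝓌 x i) * 𝓌 x k + ℋ x * 𝓌 x k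
        - ∑ i, ∑ j, inverseField ḡ x k i * K x i j * 𝓌 x j) := by
  have hx := mem_univ x
  have h := congrArg (fun v : E n => v k) (hd.id_N0 hx)
  have hq := congrArg (fun v : E n => v k) (Jd.qv_eq (g := g) (φ := φ) (f := f) (K := K) (x := x))
  have e1 : fderiv ℝ 𝓌 x (𝓌 x) k = ∑ j, 𝓌 x j * pderiv j (fun y => 𝓌 y k) x := by
    simp only [pderiv_comp hd]
    exact clm_eq_sum ((EuclideanSpace.proj k : E n →L[ℝ] ℝ).comp (fderiv ℝ 𝓌 x)) (𝓌 x)
  have e2 : divg g 𝓌 x = ∑ j, pderiv j (fun y => 𝓌 y j) x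
      + ∑ j, ∑ i, christoffel g x j j i * 𝓌 x i := by
    rw [divg_eq_trL hd.riem hx ((hd.c_wv hx).differentiableAt (by simp)), trL_apply,
      ← Finset.sum_add_distrib]
    refine Finset.sum_congr rfl fun j _ => ?_
    rw [cov_apply, pderiv_comp hd, PiLp.add_apply, Gam_apply]
    simp [Finset.sum_ite_eq', PiLp.single_apply]
  have e3 : tv ḡ K 𝓌 x k = ∑ i, ∑ j, inverseField ḡ x k i * K x i j * 𝓌 x j := by
    rw [tv, shp, mat_apply, Finset.sum_comm]
    simp only [Matrix.mul_apply, Finset.sum_mul, inverseField]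
  have e4 : Real.exp (l * z x) * Real.exp (-(l * z x)) = 1 := by rw [← Real.exp_add]; simp
  simp only [cov_apply, PiLp.add_apply, PiLp.sub_apply, PiLp.smul_apply, smul_eq_mul, Gam_apply,
    e1, e2, e3] at h hq
  simp only [dens, vE, vG, PiLp.add_apply, PiLp.smul_apply, smul_eq_mul, Finset.sum_sub_distrib,
    mul_assoc _ (𝓌 x _) (pderiv _ _ x), ← Finset.mul_sum]
  linear_combination (2 * (√(ḡ x).det * (φ x * Real.exp (α * z x)))) * (h + hq)
    - (φ x * Real.exp (α * z x) * √(ḡ x).det * (2 * grad ḡ z x k + 2 * 𝔓 x k)) * e4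

end Crest.Agent.N346.Br.Str

end
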