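import Crest.Agent.N346.Br.StrO
import Crest.Agent.N346.Br.StrG
import Crest.Agent.N346.An.UB

/-! Row 346, Br-3 (helper73): the estimates for a family of solutions evaluated at points. -/

set_option autoImplicit false

open scoped ContDiff Topology
open Filter Set
open Crest.GeometryTopology.CoordMetric Crest.MathPhysics.ExteriorData
open Crest.Agent.R202.Tens Crest.Agent.R247.Bo84 Crest.Agent.N346.Id Crest.Agent.N346.Bs
open Crest.Agent.N346.An (en gsq gsq_nonneg abs_pd_le_gsq en_nonneg)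

noncomputable section

namespace Crest.Agent.N346.Br.Str

variable {n : ℕ} {P : Type}

/-- a solution and a point; `dφ = t + s dz` at the point -/
structure Dt (n : ℕ) where
  g : MetricField n
  K : MetricField n
  φ : E n → ℝ
  f : E n → ℝ
  z : E n → ℝ
  x : E n
  τ : ℝ
  Gs : ℝ
  s : ℝ
  t : Fin n → ℝ

namespace Dt
variable (d : Dt n)
abbrev G : MetricField n := gb d.g d.φ d.f
abbrev w : E n := wv d.g d.φ d.f d.x
abbrev h : Matrix (Fin n) (Fin n) ℝ := hh d.g d.φ d.f d.x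
abbrev Z : Matrix (Fin n) (Fin n) ℝ := ZZ d.g d.φ d.f d.K d.x
abbrev p : ℝ := pp d.g d.φ d.f d.x
abbrev a : ℝ := aa d.g d.φ d.f d.x
abbrev H : ℝ := H0 d.g d.φ d.f d.x
abbrev dz (i : Fin n) : ℝ := pderiv i d.z d.x
abbrev gs : ℝ := gsq d.z d.x
abbrev e : ℝ := en d.f d.z d.x
abbrev vol : ℝ := √(d.G d.x).det
abbrev VE (α : ℝ) : VectorField n := dens d.G (vE d.g d.K d.φ d.f d.z α)
abbrev VG (l : ℝ) : VectorField n := dens d.G (vG d.g d.φ d.f d.z l)
end Dt

/-- the uniform bounds -/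
structure FB (α : ℝ) (q : P → Dt n) : Prop where
  jd : ∀ p, Jd (q p).g (q p).φ (q p).f univ
  sym : ∀ p, SymT (q p).K univ
  zs : ∀ p, ContDiff ℝ ∞ (q p).z
  jang : ∀ p y, Th (q p).g (q p).φ (q p).f (q p).K y = (q p).τ * (q p).f y
  conf : ∀ p, 2 * laplaceBeltrami (q p).G (q p).z (q p).x + α * gam (q p).G (q p).z (q p).z (q p).x
    = scalarCurv (q p).G (q p).x + (q p).Gs
  dφ : ∀ p i, pderiv i (q p).φ (q p).x = (q p).t i + (q p).s * (q p).dz i
  s0 : ∀ p, 0 ≤ (q p).s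
  bf : B fun p => (q p).f (q p).x
  bdf : ∀ i, B fun p => pderiv i (q p).f (q p).x
  bz : B fun p => (q p).z (q p).x
  bτ : B fun p => (q p).τ
  bGs : B fun p => (q p).Gs
  bs : B fun p => (q p).s
  bt : ∀ i, B fun p => (q p).t i
  bφ : B fun p => (q p).φ (q p).x
  pφ : Pos fun p => (q p).φ (q p).x
  bγ : B fun p => gm (q p).g (q p).φ (q p).f (q p).x
  bp : B fun p => (q p).p
  bw : ∀ i, B fun p => (q p).w i
  bgi : ∀ i j, B fun p => inverseField (q p).g (q p).x i j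
  bGi : ∀ i j, B fun p => inverseField (q p).G (q p).x i j
  ell : ∃ c, 0 < c ∧ ∀ p v, c * ∑ i, v i * v i ≤ qb (inverseField (q p).G (q p).x) v v
  bvol : B fun p => (q p).vol
  pvol : Pos fun p => (q p).vol
  bΓ : ∀ k i j, B fun p => christoffel (q p).g (q p).x k i j
  bRic : ∀ i j, B fun p => ricci (q p).g (q p).x i j
  bK : ∀ i j, B fun p => (q p).K (q p).x i j
  bJ : ∀ i, B fun p => momentumDensity (q p).g (q p).K (q p).x i

namespace FB

variable {α : ℝ} {q : P → Dt n} (h : FB α q)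

local notation "𝒟" => fun p => 1 + √(Dt.gs (q p))

theorem odz (i : Fin n) : O 𝒟 fun p => (q p).dz i :=
  ⟨1, zero_le_one, fun p => by
    have := abs_pd_le_gsq (q p).z (q p).x i
    simp only
    linarith⟩

theorem gs_nonneg (p : P) : 0 ≤ (q p).gs := gsq_nonneg _ _

include h

theorem odφ (i : Fin n) : O 𝒟 fun p => pderiv i (q p).φ (q p).x :=
  ((h.bt i).toD.add (O.bmul h.bs (odz i))).congr fun p => h.dφ p i

theorem odv (i : Fin n) : O 𝒟 fun p => pderiv i (lv (q p).φ) (q p).x :=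
  ((h.odφ i).div h.pφ).congr fun p => pderiv_lv (h.jd p) i

theorem oa : O 𝒟 fun p => (q p).a :=
  (O.sum _ fun i => O.bmul (h.bw i) (h.odv i)).congr fun _ => fderiv_eq_sum _ _ _

theorem oV (i : Fin n) : O 𝒟 fun p => Vv (q p).g (q p).φ (q p).f (q p).x i :=
  O.sum Finset.univ fun j => O.bmul (h.bGi i j) (h.odv j)

theorem oP (i : Fin n) : O 𝒟 fun p => Pv (q p).g (q p).φ (q p).f (q p).x i :=
  (O.bmul h.bp (O.sum Finset.univ fun j => O.bmul (h.bgi i j) (h.odv j))).sub (h.oa.mulb (h.bw i))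

theorem bR : B fun p => scalarCurv (q p).g (q p).x :=
  O.sum2 fun i j => O.bmul (h.bgi i j) (h.bRic i j)

theorem btr : B fun p => traceK (q p).g (q p).K (q p).x :=
  O.sum2 fun i j => O.bmul (h.bgi i j) (h.bK i j)

theorem bμ : B fun p => energyDensity (q p).g (q p).K (q p).x :=
  (O.cmul (1 / 2) ((h.bR.add h.btr.sq).sub (O.sum2 fun i j => O.sum2 fun a b =>
    (((h.bgi i a).mulb (h.bgi j b)).mulb (h.bK i j)).mulb (h.bK a b)))).congr fun p => by
      simp only [energyDensity, normSqK]; ring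

theorem bH : B fun p => (q p).H :=
  ((O.bmul h.bτ h.bf).add (O.sum2 fun i j => O.bmul (h.bGi i j) (h.bK i j))).congr fun p => by
    have := Jd.Th_eq (g := (q p).g) (φ := (q p).φ) (f := (q p).f) (K := (q p).K) (x := (q p).x)
    rw [h.jang] at this
    simp only [Dt.H, this, traceK]
    ring

theorem gam_ge : ∃ c, 0 < c ∧ ∀ p, c * (q p).gs ≤ gam (q p).G (q p).z (q p).z (q p).x := by
  obtain ⟨c, hc, h⟩ := h.ell
  exact ⟨c, hc, fun p => by
    simp only [Dt.gs, gsq, pow_two]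
    exact h p fun i => (q p).dz i⟩

theorem norm_ge : ∃ c, 0 < c ∧ ∀ p (T : MetricField n),
    c * ∑ i, ∑ j, T (q p).x i j ^ 2 ≤ normSqK (q p).G T (q p).x := by
  obtain ⟨c, hc, h'⟩ := h.ell
  exact ⟨c ^ 2, by positivity, fun p T =>
    tensor_lower ((h.jd p).riemb.posDef _ (mem_univ _)).inv hc.le (h' p) _⟩

theorem ohess (i j : Fin n) : O 𝒟 fun p =>
    ∑ k, christoffel (q p).g (q p).x k i j * pderiv k (q p).f (q p).x
      - (pderiv i (q p).φ (q p).x * pderiv j (q p).f (q p).x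
        + pderiv j (q p).φ (q p).x * pderiv i (q p).f (q p).x) / (q p).φ (q p).x :=
  (B.toD (O.sum _ fun k => O.bmul (h.bΓ k i j) (h.bdf k))).sub
    ((((h.odφ i).mulb (h.bdf j)).add ((h.odφ j).mulb (h.bdf i))).div h.pφ)

theorem en_le_h : ∃ C, 0 < C ∧ ∀ p,
    (q p).e ≤ C * (1 + ((∑ i, ∑ j, (q p).h i j ^ 2) + (q p).gs)) :=
  sq_le_of gs_nonneg (h.bγ.div h.pφ) h.ohess fun i j p => hess_f (h.jd p) i j

theorem en_le_Z : ∃ C, 0 < C ∧ ∀ p,
    (q p).e ≤ C * (1 + ((∑ i, ∑ j, (q p).Z i j ^ 2) + (q p).gs)) :=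
  sq_le_of gs_nonneg (h.bγ.div h.pφ)
    (fun i j => (B.toD (O.bmul (h.bγ.div h.pφ) (h.bK i j))).add (h.ohess i j)) fun i j p => by
      rw [hess_f (h.jd p) i j]
      simp only [Dt.Z, ZZ, Matrix.sub_apply]
      ring

theorem oPi : O 𝒟 fun p => ∑ i, ∑ j, ((q p).p * inverseField (q p).g (q p).x i j
    - (q p).w i * (q p).w j) * ((q p).t j / (q p).φ (q p).x) * (q p).dz i :=
  O.sum2 fun i j => O.bmul (((O.bmul h.bp (h.bgi i j)).sub (O.bmul (h.bw i) (h.bw j))).mulb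
    ((h.bt j).div h.pφ)) (odz i)

omit h in
theorem le_sq_add (T : P → Matrix (Fin n) (Fin n) ℝ) (p : P) :
    (q p).gs ≤ (∑ i, ∑ j, T p i j ^ 2) + (q p).gs :=
  le_add_of_nonneg_left
    (Finset.sum_nonneg fun _ _ => Finset.sum_nonneg fun _ _ => _root_.sq_nonneg _)

/-- the first field -/
theorem lowE (h0 : 0 < α) (h2 : α < 2) :
    Low (fun p => (q p).e) fun p => divE ((q p).VE α) (q p).x := by
  obtain ⟨c, hc, hg⟩ := h.gam_ge
  obtain ⟨c', hc', hn⟩ := h.norm_ge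
  have hα : 0 < α - α ^ 2 / 2 := by nlinarith
  have l1 : Low (fun p => (∑ i, ∑ j, (q p).Z i j ^ 2) + (q p).gs) fun p =>
      normSqK (q p).G (ZZ (q p).g (q p).φ (q p).f (q p).K) (q p).x
        + (α - α ^ 2 / 2) * gam (q p).G (q p).z (q p).z (q p).x := by
    refine ⟨min c' ((α - α ^ 2 / 2) * c), by positivity, 0, le_rfl, fun p => ?_⟩
    have a1 := hn p (ZZ (q p).g (q p).φ (q p).f (q p).K)
    have a2 := mul_le_mul_of_nonneg_left (hg p) hα.le
    have a3 := mul_le_mul_of_nonneg_right (min_le_left c' ((α - α ^ 2 / 2) * c))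
      (show 0 ≤ ∑ i, ∑ j, (q p).Z i j ^ 2 from
        Finset.sum_nonneg fun _ _ => Finset.sum_nonneg fun _ _ => _root_.sq_nonneg _)
    have a4 := mul_le_mul_of_nonneg_right (min_le_right c' ((α - α ^ 2 / 2) * c))
      (gs_nonneg (q := q) p)
    simp only [Dt.Z] at a3 ⊢
    linarith
  have o1 : O 𝒟 fun p => 2 * ((∑ i, ∑ j, inverseField (q p).G (q p).x i j * (q p).t i
      * (q p).dz j) / (q p).φ (q p).x) :=
    O.cmul 2 ((O.sum2 fun i j => O.bmul ((h.bGi i j).mulb (h.bt i)) (odz j)).div h.pφ)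
  have o2 : B fun p => 2 * (energyDensity (q p).g (q p).K (q p).x - Jw (q p).g (q p).K (q p).x (q p).w)
      + ((q p).τ * (q p).f (q p).x) ^ 2
      + 2 * ((q p).τ * (q p).f (q p).x) * traceK (q p).g (q p).K (q p).x
      + 2 * ((q p).τ * fderiv ℝ (q p).f (q p).x (q p).w) + (q p).Gs :=
    ((((O.cmul 2 (h.bμ.sub (O.sum _ fun i => O.bmul (h.bJ i) (h.bw i)))).add
      (B.sq (O.bmul h.bτ h.bf))).add ((O.cmul 2 (O.bmul h.bτ h.bf)).mulb h.btr)).add
      (O.cmul 2 (O.bmul h.bτ ((O.sum _ fun i => O.bmul (h.bw i) (h.bdf i)).congr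
        fun _ => fderiv_eq_sum _ _ _)))).add h.bGs
  have l2 := (((l1.add gs_nonneg (le_sq_add _) o1).add gs_nonneg (le_sq_add _) o2.toD).trans
    h.en_le_Z).mul (fun p => en_nonneg _ _ _)
    (O.bmul h.bvol (O.bmul h.bφ (B.exp (O.cmul α h.bz)))) (h.pvol.mul (h.pφ.mul (B.exp_pos (O.cmul α h.bz))))
  refine l2.of_le fun p => ?_
  rw [divE_dens (h.jd p).riemb, divg_vE (h.jd p) (h.sym p) (h.zs p) (h.jang p) (h.conf p),
    mul_assoc]
  refine mul_le_mul_of_nonneg_left (mul_le_mul_of_nonneg_left ?_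
    (mul_pos (h.pφ.pos p) (Real.exp_pos _)).le) (Real.sqrt_nonneg _)
  have a1 := square_le (z := (q p).z) (x := (q p).x) (h.jd p) α
    (qv (q p).g (q p).φ (q p).f (q p).K (q p).x)
  have a2 := div_le_div_of_nonneg_right (gam_φ (h.jd p) (h.s0 p) (h.dφ p)) (h.pφ.pos p).le
  linarith

/-- the second field -/
theorem lowG (h0 : 0 ≤ α) :
    ∃ l, Low (fun p => (q p).e) fun p => -divE ((q p).VG l) (q p).x := by
  obtain ⟨c, hc, hg⟩ := h.gam_ge
  obtain ⟨c', hc', hn⟩ := h.norm_ge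
  obtain ⟨C, hC, hm⟩ := mix (gs_nonneg (q := q)) (fun i j =>
    O.bmul (((O.cmul 2 ((B.const 1).sub h.bp))).mulb (h.bw i)) (h.oV j)) (half_pos hc')
  refine ⟨(C + 1) / (2 * c), ?_⟩
  set l := (C + 1) / (2 * c) with hl
  have hl0 : 0 ≤ l := by positivity
  have l1 : Low (fun p => (∑ i, ∑ j, (q p).h i j ^ 2) + (q p).gs) fun p =>
      normSqK (q p).G (hh (q p).g (q p).φ (q p).f) (q p).x
        - 2 * (1 - (q p).p) * bil (q p).h (q p).w (Vv (q p).g (q p).φ (q p).f (q p).x)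
        + 2 * l * gam (q p).G (q p).z (q p).z (q p).x := by
    refine ⟨min (c' / 2) 1, by positivity, C, hC, fun p => ?_⟩
    have a1 := hn p (hh (q p).g (q p).φ (q p).f)
    have a2 := mul_le_mul_of_nonneg_left (hg p) (show 0 ≤ 2 * l by positivity)
    have a3 := mul_le_mul_of_nonneg_right (min_le_left (c' / 2) 1)
      (show 0 ≤ ∑ i, ∑ j, (q p).h i j ^ 2 from
        Finset.sum_nonneg fun _ _ => Finset.sum_nonneg fun _ _ => _root_.sq_nonneg _)
    have a4 := mul_le_mul_of_nonneg_right (min_le_right (c' / 2) 1) (gs_nonneg (q := q) p)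
    have a5 := le_of_abs_le (hm p (q p).h)
    have a6 : 2 * (1 - (q p).p) * bil (q p).h (q p).w (Vv (q p).g (q p).φ (q p).f (q p).x)
        = ∑ i, ∑ j, (q p).h i j * (2 * (1 - (q p).p) * (q p).w i
          * Vv (q p).g (q p).φ (q p).f (q p).x j) := by
      simp only [bil_apply, Finset.mul_sum]
      exact Finset.sum_congr rfl fun i _ => Finset.sum_congr rfl fun j _ => by ring
    have a7 : 2 * l * (c * (q p).gs) = (C + 1) * (q p).gs := by rw [hl]; field_simp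
    simp only [Dt.h] at a3 a5 a6 ⊢
    linarith
  have o2 : O 𝒟 fun p => 2 * (1 - (q p).p) * (q p).H * (q p).a
      - ((q p).Gs + scalarCurv (q p).g (q p).x - 2 * bil (ricM (q p).g (q p).x) (q p).w (q p).w
        + (q p).H ^ 2) :=
    (O.bmul ((O.cmul 2 ((B.const 1).sub h.bp)).mulb h.bH) h.oa).sub (B.toD
      (((h.bGs.add h.bR).sub (O.cmul 2 ((O.sum2 fun i j =>
        ((h.bRic i j).mulb (h.bw i)).mulb (h.bw j)).congr fun _ => bil_ricM _ _ _ _))).add h.bH.sq))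
  have l2 := (((l1.add gs_nonneg (le_sq_add _) (O.cmul (2 * l) h.oPi)).add gs_nonneg
    (le_sq_add _) o2).trans h.en_le_h).mul (fun p => en_nonneg _ _ _)
    (O.bmul h.bvol (B.exp (O.cmul l h.bz).neg)) (h.pvol.mul (B.exp_pos (O.cmul l h.bz).neg))
  refine l2.of_le fun p => ?_
  rw [divE_dens (h.jd p).riemb, ← mul_neg √_, divg_vG (h.jd p) (h.zs p) l (h.conf p), mul_assoc]
  refine mul_le_mul_of_nonneg_left (mul_le_mul_of_nonneg_left ?_ (Real.exp_pos _).le)
    (Real.sqrt_nonneg _)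
  have a1 := mul_le_mul_of_nonneg_left (dz_Pv (h.jd p) (h.s0 p) (h.dφ p))
    (show 0 ≤ 2 * l by positivity)
  have a2 := mul_nonneg h0 (gam_self_nonneg (h.jd p).riemb (mem_univ (q p).x) (q p).z)
  linarith

theorem low3 (l : ℝ) : Low (fun p => (q p).gs) fun p => ∑ k, (q p).VG l (q p).x k * (q p).dz k := by
  obtain ⟨c, hc, hg⟩ := h.gam_ge
  have l1 : Low (fun p => (q p).gs) fun p => 2 * gam (q p).G (q p).z (q p).z (q p).x :=
    ⟨2 * c, by positivity, 0, le_rfl, fun p => by linarith [hg p]⟩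
  have l2 := (l1.add gs_nonneg (fun _ => le_rfl) (O.cmul 2 h.oPi)).mul gs_nonneg
    (O.bmul h.bvol (B.exp (O.cmul l h.bz).neg)) (h.pvol.mul (B.exp_pos (O.cmul l h.bz).neg))
  refine l2.of_le fun p => ?_
  rw [sum_vG]
  refine mul_le_mul_of_nonneg_left ?_ (mul_nonneg (Real.sqrt_nonneg _) (Real.exp_pos _).le)
  linarith [dz_Pv (h.jd p) (h.s0 p) (h.dφ p)]

theorem oVG (l : ℝ) (k : Fin n) : O 𝒟 fun p => (q p).VG l (q p).x k :=
  O.bmul h.bvol (O.bmul (B.exp (O.cmul l h.bz).neg)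
    ((O.cmul 2 (O.sum Finset.univ fun j => O.bmul (h.bGi k j) (odz j))).add (O.cmul 2 (h.oP k))))

theorem brem (l : ℝ) (k : Fin n) : B fun p => (q p).VE α (q p).x k
    - (q p).φ (q p).x * Real.exp (α * (q p).z (q p).x) * Real.exp (l * (q p).z (q p).x)
      * (q p).VG l (q p).x k
    - ∑ j, (2 * ((q p).vol * ((q p).φ (q p).x * Real.exp (α * (q p).z (q p).x))) * (q p).w j
        * pderiv j (fun y => wv (q p).g (q p).φ (q p).f y k) (q p).x
      - 2 * ((q p).vol * ((q p).φ (q p).x * Real.exp (α * (q p).z (q p).x))) * (q p).w k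
        * pderiv j (fun y => wv (q p).g (q p).φ (q p).f y j) (q p).x) :=
  (O.bmul (O.cmul 2 (O.bmul h.bvol (O.bmul h.bφ (B.exp (O.cmul α h.bz)))))
    ((((O.sum2 fun i j => ((h.bΓ k i j).mulb (h.bw i)).mulb (h.bw j)).sub
      ((O.sum2 fun j i => (h.bΓ j j i).mulb (h.bw i)).mulb (h.bw k))).add
      (h.bH.mulb (h.bw k))).sub
      (O.sum2 fun i j => ((h.bGi k i).mulb (h.bK i j)).mulb (h.bw j)))).congr
    fun p => vE_sub (h.jd p) α l k

end FB

end Crest.Agent.N346.Br.Str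

end
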