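import Crest.Agent.N346.Mat

/-! Row 346, Br-3 (helper73): a small calculus of uniform bounds on families of real numbers. -/

set_option autoImplicit false

open Finset

namespace Crest.Agent.N346.Br.Str

variable {P : Type} {W u v : P → ℝ} {n : ℕ}

/-- `|u| ≤ C W` uniformly -/
def O (W u : P → ℝ) : Prop := ∃ C, 0 ≤ C ∧ ∀ p, |u p| ≤ C * W p

/-- uniformly bounded -/
abbrev B (u : P → ℝ) : Prop := O (fun _ => 1) u

/-- uniformly positive -/
def Pos (u : P → ℝ) : Prop := ∃ c, 0 < c ∧ ∀ p, c ≤ u p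

/-- `u ≥ c T - C` uniformly -/
def Low (T u : P → ℝ) : Prop := ∃ c, 0 < c ∧ ∃ C, 0 ≤ C ∧ ∀ p, c * T p - C ≤ u p

theorem B.of_le {C : ℝ} (h : ∀ p, |u p| ≤ C) : B u :=
  ⟨max C 0, le_max_right _ _, fun p => by simpa using Or.inl (h p)⟩

theorem B.bdd (h : B u) : ∃ C, 0 ≤ C ∧ ∀ p, |u p| ≤ C := by
  obtain ⟨C, hC, h⟩ := h
  exact ⟨C, hC, fun p => by simpa using h p⟩

theorem B.const (c : ℝ) : B fun _ : P => c := B.of_le fun _ => le_rfl

theorem O.congr (h : O W u) (e : ∀ p, v p = u p) : O W v := by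
  have : v = u := funext e
  rwa [this]

theorem O.add (h : O W u) (h' : O W v) : O W fun p => u p + v p := by
  obtain ⟨C, hC, h⟩ := h
  obtain ⟨C', hC', h'⟩ := h'
  exact ⟨C + C', by positivity, fun p => (abs_add_le _ _).trans (by linarith [h p, h' p])⟩

theorem O.neg (h : O W u) : O W fun p => -u p := by
  obtain ⟨C, hC, h⟩ := h
  exact ⟨C, hC, fun p => by simpa using h p⟩

theorem O.sub (h : O W u) (h' : O W v) : O W fun p => u p - v p :=
  (h.add h'.neg).congr fun _ => sub_eq_add_neg _ _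

theorem O.bmul (h : B u) (h' : O W v) : O W fun p => u p * v p := by
  obtain ⟨C, hC, h⟩ := h.bdd
  obtain ⟨C', hC', h'⟩ := h'
  refine ⟨C * C', by positivity, fun p => ?_⟩
  rw [abs_mul, mul_assoc]
  exact mul_le_mul (h p) (h' p) (abs_nonneg _) hC

theorem O.mulb (h : O W u) (h' : B v) : O W fun p => u p * v p :=
  (O.bmul h' h).congr fun _ => mul_comm _ _

theorem O.cmul (c : ℝ) (h : O W u) : O W fun p => c * u p := O.bmul (B.const c) h

theorem B.sq (h : B u) : B fun p => u p ^ 2 := (O.bmul h h).congr fun _ => pow_two _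

theorem O.sum {α : Type*} (s : Finset α) {w : α → P → ℝ} (h : ∀ a, O W (w a)) :
    O W fun p => ∑ a ∈ s, w a p := by
  classical
  induction s using Finset.induction_on with
  | empty => exact ⟨0, le_rfl, fun p => by simp⟩
  | insert a s ha ih => exact ((h a).add ih).congr fun p => sum_insert ha

theorem O.sum2 {w : Fin n → Fin n → P → ℝ} (h : ∀ i j, O W (w i j)) :
    O W fun p => ∑ i, ∑ j, w i j p := O.sum _ fun i => O.sum _ fun j => h i j

theorem O.mono {W' : P → ℝ} (h : O W u) (hW : ∀ p, W p ≤ W' p) : O W' u := by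
  obtain ⟨C, hC, h⟩ := h
  exact ⟨C, hC, fun p => (h p).trans (mul_le_mul_of_nonneg_left (hW p) hC)⟩

theorem Pos.pos (h : Pos u) (p : P) : 0 < u p := by
  obtain ⟨c, hc, h⟩ := h
  exact hc.trans_le (h p)

theorem Pos.inv (h : Pos u) : B fun p => (u p)⁻¹ := by
  obtain ⟨c, hc, h⟩ := h
  refine B.of_le (C := c⁻¹) fun p => ?_
  rw [abs_of_pos (inv_pos.2 (hc.trans_le (h p)))]
  exact inv_anti₀ hc (h p)

theorem O.div (h : O W u) (h' : Pos v) : O W fun p => u p / v p :=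
  (h.mulb h'.inv).congr fun _ => div_eq_mul_inv _ _

theorem Pos.mul (h : Pos u) (h' : Pos v) : Pos fun p => u p * v p := by
  obtain ⟨c, hc, h⟩ := h
  obtain ⟨c', hc', h'⟩ := h'
  exact ⟨c * c', by positivity, fun p => mul_le_mul (h p) (h' p) hc'.le (hc.le.trans (h p))⟩

theorem B.exp (h : B u) : B fun p => Real.exp (u p) := by
  obtain ⟨C, -, h⟩ := h.bdd
  refine B.of_le (C := Real.exp C) fun p => ?_
  rw [abs_of_pos (Real.exp_pos _)]
  exact Real.exp_le_exp.2 (le_of_abs_le (h p))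

theorem B.exp_pos (h : B u) : Pos fun p => Real.exp (u p) := by
  obtain ⟨C, -, h⟩ := h.bdd
  exact ⟨Real.exp (-C), Real.exp_pos _, fun p => Real.exp_le_exp.2 (neg_le_of_abs_le (h p))⟩

theorem B.sqrt (h : B u) : B fun p => √(u p) := by
  obtain ⟨C, -, h⟩ := h.bdd
  refine B.of_le (C := √C) fun p => ?_
  rw [abs_of_nonneg (Real.sqrt_nonneg _)]
  exact Real.sqrt_le_sqrt (le_of_abs_le (h p))

theorem Pos.sqrt (h : Pos u) : Pos fun p => √(u p) := by
  obtain ⟨c, hc, h⟩ := h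
  exact ⟨√c, Real.sqrt_pos.2 hc, fun p => Real.sqrt_le_sqrt (h p)⟩

/-! ### the weight `1 + √G` -/

variable {G T T' : P → ℝ}

theorem B.toD (h : B u) : O (fun p => 1 + √(G p)) u :=
  h.mono fun _ => le_add_of_nonneg_right (Real.sqrt_nonneg _)

theorem O.sqD (hG : ∀ p, 0 ≤ G p) (h : O (fun p => 1 + √(G p)) u) :
    O (fun p => 1 + G p) fun p => u p ^ 2 := by
  obtain ⟨C, hC, h⟩ := h
  refine ⟨2 * C ^ 2, by positivity, fun p => ?_⟩
  have h1 := h p
  have h2 : |u p| ^ 2 ≤ (C * (1 + √(G p))) ^ 2 := pow_le_pow_left₀ (abs_nonneg _) h1 2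
  have h3 := Real.sq_sqrt (hG p)
  rw [abs_pow]
  refine h2.trans ?_
  rw [mul_pow]
  have : (1 + √(G p)) ^ 2 ≤ 2 * (1 + G p) := by nlinarith [sq_nonneg (1 - √(G p))]
  nlinarith [sq_nonneg C]

/-- mixed terms -/
theorem mix (hG : ∀ p, 0 ≤ G p) {w : Fin n → Fin n → P → ℝ}
    (h : ∀ i j, O (fun p => 1 + √(G p)) (w i j)) {ε : ℝ} (hε : 0 < ε) :
    ∃ C, 0 ≤ C ∧ ∀ p (M : Fin n → Fin n → ℝ),
      |∑ i, ∑ j, M i j * w i j p| ≤ ε * (∑ i, ∑ j, M i j ^ 2) + C * (1 + G p) := by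
  obtain ⟨C, hC, h'⟩ := O.sum2 fun i j => (h i j).sqD hG
  refine ⟨C / ε, by positivity, fun p M => ?_⟩
  have h1 : |∑ i, ∑ j, M i j * w i j p| ≤ ∑ i, ∑ j, (ε * M i j ^ 2 + w i j p ^ 2 / ε) := by
    refine (abs_sum_le_sum_abs _ _).trans (sum_le_sum fun i _ => ?_)
    refine (abs_sum_le_sum_abs _ _).trans (sum_le_sum fun j _ => ?_)
    have e : w i j p ^ 2 / ε = ε * (w i j p / ε) ^ 2 := by field_simp
    have e2 : M i j * w i j p = ε * (M i j * (w i j p / ε)) := by field_simp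
    rw [e, e2, abs_mul, abs_of_pos hε, ← mul_add]
    refine mul_le_mul_of_nonneg_left (abs_le.2 ⟨?_, ?_⟩) hε.le
    · nlinarith [sq_nonneg (M i j + w i j p / ε), sq_nonneg (M i j), sq_nonneg (w i j p / ε)]
    · nlinarith [sq_nonneg (M i j - w i j p / ε), sq_nonneg (M i j), sq_nonneg (w i j p / ε)]
  refine h1.trans ?_
  simp only [sum_add_distrib, ← mul_sum, ← sum_div]
  have h2 := le_of_abs_le (h' p)
  have : (∑ i, ∑ j, w i j p ^ 2) / ε ≤ C / ε * (1 + G p) := by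
    rw [div_mul_eq_mul_div]; exact div_le_div_of_nonneg_right h2 hε.le
  linarith

theorem Low.of_le (h : Low T u) (e : ∀ p, u p ≤ v p) : Low T v := by
  obtain ⟨c, hc, C, hC, h⟩ := h
  exact ⟨c, hc, C, hC, fun p => (h p).trans (e p)⟩

/-- absorption of a term of linear growth -/
theorem Low.add (hG : ∀ p, 0 ≤ G p) (hT : ∀ p, G p ≤ T p) (h : Low T u)
    (h' : O (fun p => 1 + √(G p)) v) : Low T fun p => u p + v p := by
  obtain ⟨c, hc, C, hC, h⟩ := h
  obtain ⟨C', hC', h'⟩ := h'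
  refine ⟨c / 2, by positivity, C + C' + C' ^ 2 / c, by positivity, fun p => ?_⟩
  have h1 := neg_le_of_abs_le (h' p)
  have h3 := Real.sq_sqrt (hG p)
  have h4 : C' * √(G p) ≤ c / 2 * G p + C' ^ 2 / c := by
    have e : C' ^ 2 / c = c * (C' / c) ^ 2 := by field_simp
    have e2 : C' * √(G p) = c * (C' / c * √(G p)) := by field_simp
    rw [e, e2]
    nlinarith [mul_nonneg hc.le (sq_nonneg (√(G p) - C' / c)), mul_nonneg hc.le (sq_nonneg (C' / c))]
  have h5 := mul_le_mul_of_nonneg_left (hT p) (half_pos hc).le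
  have := h p
  simp only at h1 ⊢
  linarith

theorem Low.mul (hT : ∀ p, 0 ≤ T p) (h : Low T u) (hv : B v) (hp : Pos v) :
    Low T fun p => v p * u p := by
  obtain ⟨c, hc, C, hC, h⟩ := h
  obtain ⟨C', hC', hv⟩ := hv.bdd
  obtain ⟨c', hc', hp⟩ := hp
  refine ⟨c' * c, by positivity, C' * C, by positivity, fun p => ?_⟩
  have h1 := mul_le_mul_of_nonneg_left (h p) (hc'.le.trans (hp p))
  have h2 := mul_le_mul_of_nonneg_right (hp p) (mul_nonneg hc.le (hT p))
  have h3 := mul_le_mul_of_nonneg_right (le_of_abs_le (hv p)) hC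
  simp only
  nlinarith

theorem Low.trans (h : Low T u) (h' : ∃ C, 0 < C ∧ ∀ p, T' p ≤ C * (1 + T p)) : Low T' u := by
  obtain ⟨c, hc, C, hC, h⟩ := h
  obtain ⟨C', hC', h'⟩ := h'
  refine ⟨c / C', by positivity, C + c, by positivity, fun p => ?_⟩
  have h1 : c / C' * T' p ≤ c * (1 + T p) := by
    rw [div_mul_eq_mul_div, div_le_iff₀ hC']
    nlinarith [mul_le_mul_of_nonneg_left (h' p) hc.le]
  linarith [h p]

/-- the Hessian in terms of a tensor -/
theorem sq_le_of (hG : ∀ p, 0 ≤ G p) {F M r : Fin n → Fin n → P → ℝ} (hu : B u)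
    (hr : ∀ i j, O (fun p => 1 + √(G p)) (r i j)) (e : ∀ i j p, F i j p = u p * M i j p + r i j p) :
    ∃ C, 0 < C ∧ ∀ p, (∑ i, ∑ j, F i j p ^ 2) + G p ≤ C * (1 + ((∑ i, ∑ j, M i j p ^ 2) + G p)) := by
  obtain ⟨C, hC, h⟩ := O.sum2 fun i j => (hr i j).sqD hG
  obtain ⟨C', hC', h'⟩ := hu.sq.bdd
  refine ⟨2 * C + 2 * C' + 1, by positivity, fun p => ?_⟩
  have h1 : ∑ i, ∑ j, F i j p ^ 2 ≤ ∑ i, ∑ j, (2 * C' * M i j p ^ 2 + 2 * r i j p ^ 2) := by
    refine sum_le_sum fun i _ => sum_le_sum fun j _ => ?_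
    have := mul_le_mul_of_nonneg_right (le_of_abs_le (h' p)) (sq_nonneg (M i j p))
    rw [e]
    nlinarith [sq_nonneg (u p * M i j p - r i j p)]
  simp only [sum_add_distrib, ← mul_sum] at h1
  have h2 := le_of_abs_le (h p)
  have h3 : 0 ≤ ∑ i, ∑ j, M i j p ^ 2 := sum_nonneg fun i _ => sum_nonneg fun j _ => sq_nonneg _
  have := hG p
  simp only at h2
  nlinarith [mul_nonneg hC h3, mul_nonneg hC' this]

/-! ### matrices -/

open Bs Matrix

/-- ellipticity on two-tensors -/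
theorem tensor_lower {A : Matrix (Fin n) (Fin n) ℝ} (hA : A.PosDef) {c : ℝ} (hc : 0 ≤ c)
    (h : ∀ v, c * ∑ i, v i * v i ≤ qb A v v) (M : Matrix (Fin n) (Fin n) ℝ) :
    c ^ 2 * ∑ i, ∑ j, M i j ^ 2 ≤ ∑ i, ∑ j, ∑ a, ∑ b, A i a * A j b * M i j * M a b := by
  obtain ⟨S, -, -, hS, -⟩ := simul_diag hA (posDef_symm hA)
  have e : ∀ i a, A i a = ∑ m, S m i * S m a := fun i a => by
    conv_lhs => rw [hS]
    simp [Matrix.mul_apply]
  have h1 : ∑ i, ∑ j, ∑ a, ∑ b, A i a * A j b * M i j * M a b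
      = ∑ m, qb A (fun j => ∑ i, S m i * M i j) (fun j => ∑ i, S m i * M i j) := by
    simp only [qb, mul_sum, sum_mul]
    have : ∀ i j a b, A i a * A j b * M i j * M a b
        = ∑ m, A j b * (S m i * M i j) * (S m a * M a b) := fun i j a b => by
      rw [e i a, sum_mul, sum_mul, sum_mul]
      exact sum_congr rfl fun m _ => by ring
    simp only [this]
    calc ∑ i, ∑ j, ∑ a, ∑ b, ∑ m, A j b * (S m i * M i j) * (S m a * M a b)
        = ∑ x : Fin n × Fin n × Fin n × Fin n × Fin n,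
            A x.2.1 x.2.2.2.1 * (S x.2.2.2.2 x.1 * M x.1 x.2.1) * (S x.2.2.2.2 x.2.2.1 * M x.2.2.1 x.2.2.2.1) := by
          simp only [Fintype.sum_prod_type]
      _ = ∑ x : Fin n × Fin n × Fin n × Fin n × Fin n,
            A x.2.1 x.2.2.1 * (S x.1 x.2.2.2.2 * M x.2.2.2.2 x.2.1) * (S x.1 x.2.2.2.1 * M x.2.2.2.1 x.2.2.1) :=
          Fintype.sum_equiv
            ⟨fun x => (x.2.2.2.2, x.2.1, x.2.2.2.1, x.2.2.1, x.1),
              fun x => (x.2.2.2.2, x.2.1, x.2.2.2.1, x.2.2.1, x.1), fun _ => rfl, fun _ => rfl⟩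
            _ _ fun _ => rfl
      _ = _ := by simp only [Fintype.sum_prod_type]
  have h2 : ∑ m, ∑ j, (∑ i, S m i * M i j) * (∑ i, S m i * M i j)
      = ∑ j, qb A (fun i => M i j) (fun i => M i j) := by
    rw [sum_comm]
    refine sum_congr rfl fun j _ => ?_
    simp only [qb, e, sum_mul, mul_sum]
    rw [sum_comm]
    refine sum_congr rfl fun i _ => ?_
    rw [sum_comm]
    exact sum_congr rfl fun a _ => sum_congr rfl fun m _ => by ring
  have h3 : c * ∑ i, ∑ j, M i j ^ 2 ≤ ∑ j, qb A (fun i => M i j) (fun i => M i j) := by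
    rw [sum_comm, mul_sum]
    exact sum_le_sum fun j _ => by simpa only [sq] using h fun i => M i j
  rw [h1, sq, mul_assoc]
  refine (mul_le_mul_of_nonneg_left (h3.trans h2.ge) hc).trans ?_
  rw [mul_sum]
  exact sum_le_sum fun m _ => h _

/-- bounded entries give an upper bound of the quadratic form -/
theorem qb_upper {A : P → Matrix (Fin n) (Fin n) ℝ} (h : ∀ i j, B fun p => A p i j) :
    ∃ C, 0 < C ∧ ∀ p v, qb (A p) v v ≤ C * ∑ i, v i * v i := by
  obtain ⟨C, hC, h'⟩ := B.bdd (O.sum2 (w := fun i j p => |A p i j|) fun i j => by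
    obtain ⟨C, hC, h⟩ := h i j
    exact ⟨C, hC, fun p => by simpa using h p⟩)
  refine ⟨C + 1, by positivity, fun p v => ?_⟩
  have hs : 0 ≤ ∑ i, v i * v i := sum_nonneg fun i _ => mul_self_nonneg _
  have h1 : qb (A p) v v ≤ ∑ i, ∑ j, |A p i j| * ∑ k, v k * v k := by
    refine sum_le_sum fun i _ => sum_le_sum fun j _ => ?_
    have hi : v i * v i ≤ ∑ k, v k * v k :=
      single_le_sum (f := fun k => v k * v k) (fun k _ => mul_self_nonneg _) (mem_univ i)
    have hj : v j * v j ≤ ∑ k, v k * v k :=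
      single_le_sum (f := fun k => v k * v k) (fun k _ => mul_self_nonneg _) (mem_univ j)
    have : |v i * v j| ≤ ∑ k, v k * v k :=
      abs_le.2 ⟨by nlinarith [sq_nonneg (v i + v j)], by nlinarith [sq_nonneg (v i - v j)]⟩
    rw [mul_assoc]
    refine (le_abs_self _).trans ?_
    rw [abs_mul]
    exact mul_le_mul_of_nonneg_left this (abs_nonneg _)
  simp only [← sum_mul] at h1
  have h2 := mul_le_mul_of_nonneg_right (le_of_abs_le (h' p)) hs
  linarith

end Crest.Agent.N346.Br.Str
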